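import Vale.Agent.P254.Orlicz.Defs

/-!
Affine invariance of the isotropic constant.
-/

open MeasureTheory Set
open scoped Matrix

namespace Vale.Agent.P254.Three

variable {n : ℕ}

lemma integral_affine (M : Matrix (Fin n) (Fin n) ℝ) (hM : M.det ≠ 0) (b : Fin n → ℝ)
    (K : Set (Fin n → ℝ)) (F : (Fin n → ℝ) → ℝ) :
    ∫ y in (fun x => M *ᵥ x + b) '' K, F y = |M.det| * ∫ x in K, F (M *ᵥ x + b) := by
  set L : (Fin n → ℝ) →ₗ[ℝ] (Fin n → ℝ) := Matrix.toLin' M with hL
  have hdet : LinearMap.det L = M.det := by rw [hL, LinearMap.det_toLin']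
  set e := (L.equivOfDetNeZero (by rwa [hdet])).toContinuousLinearEquiv with he
  have hme : MeasurableEmbedding L := e.toHomeomorph.measurableEmbedding
  have him : (fun x => M *ᵥ x + b) '' K = (fun y => y + b) '' (L '' K) := by
    rw [image_image]
    simp [hL]
  have htr : MeasurableEmbedding fun y : Fin n → ℝ => y + b :=
    (Homeomorph.addRight b).measurableEmbedding
  have h1 := (measurePreserving_add_right (volume : Measure (Fin n → ℝ)) b).setIntegral_image_emb
    htr F (L '' K)
  have h2 : ∫ y in L '' K, F (y + b) =
      |M.det| * ∫ x in K, F (L x + b) := by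
    have hmap := Measure.map_linearMap_addHaar_eq_smul_addHaar (μ := (volume : Measure (Fin n → ℝ)))
      (f := L) (by rwa [hdet])
    have h3 := hme.setIntegral_map (μ := (volume : Measure (Fin n → ℝ))) (fun y => F (y + b))
      (L '' K)
    rw [preimage_image_eq _ hme.injective, hmap, Measure.restrict_smul, integral_smul_measure,
      ENNReal.toReal_ofReal (abs_nonneg _), hdet, abs_inv, smul_eq_mul] at h3
    rw [← h3, ← mul_assoc, mul_inv_cancel₀ (abs_ne_zero.2 hM), one_mul]
  rw [him, h1, h2]
  simp [hL]

/-- The isotropic constant is unchanged by invertible affine maps. -/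
theorem isoConst_affine (M : Matrix (Fin n) (Fin n) ℝ) (hM : M.det ≠ 0) (b : Fin n → ℝ)
    (K : Set (Fin n → ℝ)) (hK : IsCompact K) (hvol : volume.real K ≠ 0) :
    isoConst ((fun x => M *ᵥ x + b) '' K) = isoConst K := by
  set K' := (fun x => M *ᵥ x + b) '' K with hK'
  set d := |M.det| with hd
  have hd0 : d ≠ 0 := abs_ne_zero.2 hM
  have hv : volume.real K' = d * volume.real K := by
    have := integral_affine M hM b K fun _ => (1:ℝ)
    simpa using this
  have hint : ∀ (F : (Fin n → ℝ) → ℝ), Continuous F → IntegrableOn F K := fun F hF =>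
    hF.continuousOn.integrableOn_compact hK
  have hb : ∀ i, bary K' i = ∑ k, M i k * bary K k + b i := by
    intro i
    rw [bary, hv, integral_affine M hM b K fun y => y i]
    simp only [Matrix.mulVec, dotProduct, Pi.add_apply]
    rw [integral_add (hint _ (by fun_prop)) (hint _ (by fun_prop)),
      integral_finsetSum _ fun k _ => hint _ (by fun_prop), setIntegral_const, smul_eq_mul,
      mul_inv, mul_mul_mul_comm, ← hd, inv_mul_cancel₀ hd0, one_mul, mul_add,
      inv_mul_cancel_left₀ hvol, Finset.mul_sum]
    congr 1
    refine Finset.sum_congr rfl fun k _ => ?_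
    rw [integral_const_mul, bary]
    ring
  have hcov : cov K' = M * cov K * Mᵀ := by
    ext i j
    have hc : ∀ i x, (M *ᵥ x + b) i - bary K' i = ∑ k, M i k * (x k - bary K k) := by
      intro i x
      rw [hb]
      simp only [Matrix.mulVec, dotProduct, Pi.add_apply, mul_sub, Finset.sum_sub_distrib]
      ring
    simp only [cov, Matrix.of_apply, Matrix.mul_apply, Matrix.transpose_apply]
    rw [hv, integral_affine M hM b K fun y => (y i - bary K' i) * (y j - bary K' j)]
    simp only [hc, Finset.sum_mul_sum]
    rw [integral_finsetSum _ fun k _ => hint _ (by fun_prop)]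
    simp only [fun k => integral_finsetSum (μ := volume.restrict K) Finset.univ
      (f := fun l x => M i k * (x k - bary K k) * (M j l * (x l - bary K l)))
      fun l _ => hint _ (by fun_prop)]
    rw [mul_inv, mul_mul_mul_comm, ← hd, inv_mul_cancel₀ hd0, one_mul, Finset.sum_comm,
      Finset.mul_sum]
    refine Finset.sum_congr rfl fun l _ => ?_
    rw [Finset.mul_sum, Finset.sum_mul]
    refine Finset.sum_congr rfl fun k _ => ?_
    rw [show (fun x : Fin n → ℝ => M i k * (x k - bary K k) * (M j l * (x l - bary K l))) =
      fun x => M i k * M j l * ((x k - bary K k) * (x l - bary K l)) from funext fun x => by ring,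
      integral_const_mul]
    ring
  rw [isoConst, isoConst, hcov, hv]
  congr 1
  rw [Matrix.det_mul, Matrix.det_mul, Matrix.det_transpose, mul_pow, hd, sq_abs]
  field_simp

end Vale.Agent.P254.Three
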