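import Vale.Agent.P254.Three.Defs

/-!
The one-variable tail inequality: the worst profile is a plateau followed by a cone.
-/

open MeasureTheory Set

namespace Vale.Agent.P254.Three

section

variable {h : ℝ → ℝ} {a : ℝ}

lemma integrable_sq (hanti : AntitoneOn h (Icc 0 a)) (hnn : ∀ t ∈ Icc 0 a, 0 ≤ h t) {s t : ℝ}
    (hs : 0 ≤ s) (hst : s ≤ t) (ht : t ≤ a) :
    IntervalIntegrable (fun x => h x ^ 2) volume s t := by
  refine AntitoneOn.intervalIntegrable ?_
  rw [uIcc_of_le hst]
  intro x hx y hy hxy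
  exact pow_le_pow_left₀ (hnn y ⟨hs.trans hy.1, hy.2.trans ht⟩)
    (hanti ⟨hs.trans hx.1, hx.2.trans ht⟩ ⟨hs.trans hy.1, hy.2.trans ht⟩ hxy) 2

lemma cont_Ioo (hc : ConcaveOn ℝ (Icc 0 a) h) : ContinuousOn h (Ioo 0 a) := by
  have := hc.continuousOn_interior
  rwa [interior_Icc] at this

lemma tl_nonneg (ha : 0 < a) {t : ℝ} (ht : t ∈ Icc 0 a) : 0 ≤ tl h a t :=
  intervalIntegral.integral_nonneg ht.2 fun x _ => sq_nonneg _

lemma tl_split (hanti : AntitoneOn h (Icc 0 a)) (hnn : ∀ t ∈ Icc 0 a, 0 ≤ h t) {s t : ℝ}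
    (hs : 0 ≤ s) (hst : s ≤ t) (ht : t ≤ a) :
    (∫ x in s..t, h x ^ 2) + tl h a t = tl h a s :=
  intervalIntegral.integral_add_adjacent_intervals (integrable_sq hanti hnn hs hst ht)
    (integrable_sq hanti hnn (hs.trans hst) ht le_rfl)

lemma tl_anti (hanti : AntitoneOn h (Icc 0 a)) (hnn : ∀ t ∈ Icc 0 a, 0 ≤ h t) :
    AntitoneOn (tl h a) (Icc 0 a) := fun s hs t ht hst => by
  have h2 := tl_split hanti hnn hs.1 hst ht.2
  have : 0 ≤ ∫ x in s..t, h x ^ 2 := intervalIntegral.integral_nonneg hst fun x _ => sq_nonneg _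
  linarith

lemma tl_pos (hanti : AntitoneOn h (Icc 0 a)) (hnn : ∀ t ∈ Icc 0 a, 0 ≤ h t)
    (hpos : ∀ t ∈ Ico 0 a, 0 < h t) {t : ℝ} (ht : t ∈ Ico 0 a) : 0 < tl h a t := by
  set m := (t + a) / 2 with hm
  have htm : t < m := by rw [hm]; linarith [ht.2]
  have hma : m < a := by rw [hm]; linarith [ht.2]
  have h1 := tl_split hanti hnn ht.1 htm.le hma.le
  have h2 : 0 ≤ tl h a m := intervalIntegral.integral_nonneg hma.le fun x _ => sq_nonneg _
  have h3 : (∫ _x in t..m, h m ^ 2) ≤ ∫ x in t..m, h x ^ 2 := by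
    refine intervalIntegral.integral_mono_on htm.le intervalIntegrable_const
      (integrable_sq hanti hnn ht.1 htm.le hma.le) fun x hx => ?_
    have hm0 : m ∈ Icc 0 a := ⟨by linarith [ht.1], hma.le⟩
    exact pow_le_pow_left₀ (hnn m hm0)
      (hanti ⟨ht.1.trans hx.1, hx.2.trans hma.le⟩ hm0 hx.2) 2
  rw [intervalIntegral.integral_const, smul_eq_mul] at h3
  have h4 : 0 < (m - t) * h m ^ 2 :=
    mul_pos (by linarith) (pow_pos (hpos m ⟨by linarith [ht.1], hma⟩) 2)
  linarith

/-- The cube of the height, relative to the tail, increases. -/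
lemma tl_secant (hc : ConcaveOn ℝ (Icc 0 a) h) (hanti : AntitoneOn h (Icc 0 a))
    (hnn : ∀ t ∈ Icc 0 a, 0 ≤ h t) {s t : ℝ} (hs : 0 ≤ s) (hst : s < t) (ht : t ≤ a) :
    tl h a t * h s ^ 3 ≤ tl h a s * h t ^ 3 := by
  have hs' : s ∈ Icc 0 a := ⟨hs, hst.le.trans ht⟩
  have ht' : t ∈ Icc 0 a := ⟨hs.trans hst.le, ht⟩
  have hle : h t ≤ h s := hanti hs' ht' hst.le
  have hT := tl_split hanti hnn hs hst.le ht
  rcases hle.eq_or_lt with he | hlt
  · rw [he]
    refine mul_le_mul_of_nonneg_right ?_ (pow_nonneg (hnn s hs') 3)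
    exact tl_anti hanti hnn hs' ht' hst.le
  set σ := (h s - h t) / (t - s) with hσ
  have hd : 0 < t - s := by linarith
  have hσ0 : 0 < σ := div_pos (by linarith) hd
  have hσe : σ * (t - s) = h s - h t := div_mul_cancel₀ _ hd.ne'
  have hbefore : ∀ x ∈ Icc s t, h t + σ * (t - x) ≤ h x := by
    intro x hx
    have := hc.2 hs' ht' (show 0 ≤ (t - x) / (t - s) from div_nonneg (by linarith [hx.2]) hd.le)
      (show 0 ≤ (x - s) / (t - s) from div_nonneg (by linarith [hx.1]) hd.le)
      (by field_simp; ring)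
    simp only [smul_eq_mul] at this
    have e : (t - x) / (t - s) * s + (x - s) / (t - s) * t = x := by field_simp; ring
    rw [e] at this
    refine le_trans (le_of_eq ?_) this
    rw [hσ]; field_simp; ring
  have hafter : ∀ x ∈ Icc t a, h x ≤ h t - σ * (x - t) := by
    intro x hx
    have hx' : x ∈ Icc 0 a := ⟨ht'.1.trans hx.1, hx.2⟩
    rcases hx.1.eq_or_lt with he | hl
    · simp [← he]
    have hxs : 0 < x - s := by linarith
    have := hc.2 hs' hx' (show 0 ≤ (x - t) / (x - s) from div_nonneg (by linarith) hxs.le)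
      (show 0 ≤ (t - s) / (x - s) from div_nonneg (by linarith) hxs.le)
      (by field_simp; ring)
    simp only [smul_eq_mul] at this
    have e : (x - t) / (x - s) * s + (t - s) / (x - s) * x = t := by field_simp; ring
    rw [e, div_mul_eq_mul_div, div_mul_eq_mul_div, ← add_div, div_le_iff₀ hxs] at this
    have h5 : (t - s) * h x ≤ (t - s) * (h t - σ * (x - t)) := by
      have : (t - s) * (σ * (x - t)) = (h s - h t) * (x - t) := by rw [← hσe]; ring
      nlinarith
    exact le_of_mul_le_mul_left h5 hd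
  have h1 : (h s ^ 3 - h t ^ 3) / (3 * σ) ≤ ∫ x in s..t, h x ^ 2 := by
    have he : ∫ x in s..t, (h t + σ * (t - x)) ^ 2 = (h s ^ 3 - h t ^ 3) / (3 * σ) := by
      have hd' : ∀ x ∈ uIcc s t, HasDerivAt (fun x => -((h t + σ * (t - x)) ^ 3) / (3 * σ))
          ((h t + σ * (t - x)) ^ 2) x := by
        intro x _
        have := (((((hasDerivAt_id x).const_sub t).const_mul σ).const_add (h t)).pow 3).neg.div_const
          (3 * σ)
        refine this.congr_deriv ?_
        simp only [id]
        field_simp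
        push_cast
        ring
      rw [intervalIntegral.integral_eq_sub_of_hasDerivAt hd'
        (Continuous.intervalIntegrable (by fun_prop) _ _), sub_self, mul_zero, add_zero, hσe]
      field_simp
      ring
    rw [← he]
    refine intervalIntegral.integral_mono_on hst.le (Continuous.intervalIntegrable (by fun_prop) _ _)
      (integrable_sq hanti hnn hs hst.le ht) fun x hx => ?_
    exact pow_le_pow_left₀ (add_nonneg (hnn t ht') (mul_nonneg hσ0.le (by linarith [hx.2])))
      (hbefore x hx) 2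
  have h2 : tl h a t ≤ h t ^ 3 / (3 * σ) := by
    have he : ∫ x in t..a, (h t - σ * (x - t)) ^ 2 =
        (h t ^ 3 - (h t - σ * (a - t)) ^ 3) / (3 * σ) := by
      have hd' : ∀ x ∈ uIcc t a, HasDerivAt (fun x => -((h t - σ * (x - t)) ^ 3) / (3 * σ))
          ((h t - σ * (x - t)) ^ 2) x := by
        intro x _
        have := (((((hasDerivAt_id x).sub_const t).const_mul σ).const_sub (h t)).pow 3).neg.div_const
          (3 * σ)
        refine this.congr_deriv ?_
        simp only [id]
        field_simp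
        push_cast
        ring
      rw [intervalIntegral.integral_eq_sub_of_hasDerivAt hd'
        (Continuous.intervalIntegrable (by fun_prop) _ _), sub_self, mul_zero, sub_zero]
      ring
    have hlast : 0 ≤ h t - σ * (a - t) :=
      (hnn a ⟨hs'.1.trans hs'.2, le_rfl⟩).trans (hafter a ⟨ht, le_rfl⟩)
    calc tl h a t ≤ ∫ x in t..a, (h t - σ * (x - t)) ^ 2 :=
          intervalIntegral.integral_mono_on ht (integrable_sq hanti hnn ht'.1 ht le_rfl)
            (Continuous.intervalIntegrable (by fun_prop) _ _) fun x hx =>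
            pow_le_pow_left₀ (hnn x ⟨ht'.1.trans hx.1, hx.2⟩) (hafter x hx) 2
      _ ≤ _ := by
          rw [he]
          refine div_le_div_of_nonneg_right ?_ (by positivity)
          linarith [pow_nonneg hlast 3]
  rw [← hT]
  rw [div_le_iff₀ (by positivity)] at h1
  rw [le_div_iff₀ (by positivity)] at h2
  have hp : 0 ≤ h t ^ 3 := pow_nonneg (hnn t ht') 3
  have hq : 0 ≤ h s ^ 3 - h t ^ 3 := sub_nonneg.2 (pow_le_pow_left₀ (hnn t ht') hle 3)
  have : tl h a t * (h s ^ 3 - h t ^ 3) * (3 * σ) ≤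
      h t ^ 3 * (∫ x in s..t, h x ^ 2) * (3 * σ) := by
    calc _ = (tl h a t * (3 * σ)) * (h s ^ 3 - h t ^ 3) := by ring
      _ ≤ h t ^ 3 * (h s ^ 3 - h t ^ 3) := mul_le_mul_of_nonneg_right h2 hq
      _ ≤ h t ^ 3 * ((∫ x in s..t, h x ^ 2) * (3 * σ)) := mul_le_mul_of_nonneg_left h1 hp
      _ = _ := by ring
  have := le_of_mul_le_mul_right this (by positivity)
  linarith

lemma tl_cont (ha : 0 < a) (hanti : AntitoneOn h (Icc 0 a)) (hnn : ∀ t ∈ Icc 0 a, 0 ≤ h t) :
    ContinuousOn (tl h a) (Icc 0 a) := by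
  have hi := (integrable_sq hanti hnn le_rfl ha.le le_rfl).symm
  have h1 := intervalIntegral.continuousOn_primitive_interval' hi
    (left_mem_uIcc (a := a) (b := (0:ℝ)))
  rw [uIcc_of_ge ha.le] at h1
  refine h1.neg.congr fun t _ => ?_
  simp [tl, intervalIntegral.integral_symm a t]

lemma tl_deriv (hc : ConcaveOn ℝ (Icc 0 a) h) (hanti : AntitoneOn h (Icc 0 a))
    (hnn : ∀ t ∈ Icc 0 a, 0 ≤ h t) {t : ℝ} (ht : t ∈ Ioo 0 a) :
    HasDerivAt (tl h a) (-(h t ^ 2)) t := by
  have hcont : ContinuousAt (fun x => h x ^ 2) t :=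
    ((cont_Ioo hc).continuousAt (isOpen_Ioo.mem_nhds ht)).pow 2
  exact intervalIntegral.integral_hasDerivAt_left (integrable_sq hanti hnn ht.1.le ht.2.le le_rfl)
    ((((cont_Ioo hc).pow 2).stronglyMeasurableAtFilter isOpen_Ioo) t ht) hcont

/-- Change of variable by the tail. -/
lemma subst_tail (ha : 0 < a) (hc : ConcaveOn ℝ (Icc 0 a) h) (hanti : AntitoneOn h (Icc 0 a))
    (hnn : ∀ t ∈ Icc 0 a, 0 ≤ h t) {F : ℝ → ℝ} (hF : Continuous F) :
    ∫ t in (0:ℝ)..a, F (tl h a t) * h t ^ 2 = ∫ v in (0:ℝ)..tl h a 0, F v := by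
  set P : ℝ → ℝ := fun x => ∫ v in (0:ℝ)..x, F v with hP
  have hPd : ∀ x, HasDerivAt P (F x) x := fun x => hF.integral_hasStrictDerivAt 0 x |>.hasDerivAt
  have hPc : Continuous P := continuous_iff_continuousAt.2 fun x => (hPd x).continuousAt
  have hi : IntervalIntegrable (fun t => F (tl h a t) * h t ^ 2) volume 0 a := by
    refine (integrable_sq hanti hnn le_rfl ha.le le_rfl).continuousOn_mul ?_
    rw [uIcc_of_le ha.le]
    exact hF.comp_continuousOn (tl_cont ha hanti hnn)
  have h1 := intervalIntegral.integral_eq_sub_of_hasDerivAt_of_le ha.le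
    (f := fun t => -P (tl h a t)) (hPc.comp_continuousOn (tl_cont ha hanti hnn)).neg
    (fun t ht => ((hPd _).comp t (tl_deriv hc hanti hnn ht)).neg.congr_deriv (by ring)) hi
  rw [h1]
  simp [hP, tl]

lemma moment_eq_tail (ha : 0 < a) (hc : ConcaveOn ℝ (Icc 0 a) h) (hanti : AntitoneOn h (Icc 0 a))
    (hnn : ∀ t ∈ Icc 0 a, 0 ≤ h t) :
    ∫ t in (0:ℝ)..a, tl h a t = ∫ t in (0:ℝ)..a, t * h t ^ 2 := by
  have hct := tl_cont ha hanti hnn
  have hi1 : IntervalIntegrable (tl h a) volume 0 a :=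
    hct.intervalIntegrable_of_Icc ha.le
  have hi2 : IntervalIntegrable (fun t => t * h t ^ 2) volume 0 a :=
    (integrable_sq hanti hnn le_rfl ha.le le_rfl).continuousOn_mul continuousOn_id
  have h1 := intervalIntegral.integral_eq_sub_of_hasDerivAt_of_le ha.le
    (f := fun t => t * tl h a t) (f' := fun t => tl h a t - t * h t ^ 2)
    (continuousOn_id.mul hct)
    (fun t ht => ((hasDerivAt_id t).mul (tl_deriv hc hanti hnn ht)).congr_deriv (by simp; ring))
    (hi1.sub hi2)
  rw [intervalIntegral.integral_sub hi1 hi2] at h1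
  have : tl h a a = 0 := intervalIntegral.integral_same
  simp only [this, mul_zero, zero_mul, sub_zero] at h1
  linarith

end

/-- The model density in the tail variable. -/
noncomputable def ramp (α u : ℝ) : ℝ := if u < α then (u / α) ^ ((2:ℝ) / 3) else 1

lemma ramp_nonneg {α u : ℝ} (hα : 0 < α) (hu : 0 ≤ u) : 0 ≤ ramp α u := by
  unfold ramp; split_ifs
  · exact Real.rpow_nonneg (by positivity) _
  · exact zero_le_one

lemma ramp_le_one {α u : ℝ} (hα : 0 < α) (hu : 0 ≤ u) : ramp α u ≤ 1 := by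
  unfold ramp; split_ifs with h
  · exact Real.rpow_le_one (by positivity) (by rw [div_le_one hα]; exact h.le) (by norm_num)
  · exact le_rfl

lemma ramp_mono {α u v : ℝ} (hα : 0 < α) (hu : 0 ≤ u) (huv : u ≤ v) : ramp α u ≤ ramp α v := by
  unfold ramp
  split_ifs with h1 h2
  · exact Real.rpow_le_rpow (by positivity) (by gcongr) (by norm_num)
  · exact Real.rpow_le_one (by positivity) (by rw [div_le_one hα]; exact h1.le) (by norm_num)
  · linarith
  · exact le_rfl

lemma ramp_mul {α u : ℝ} (hα : 0 < α) (hu : 0 ≤ u) :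
    u * ramp α u = min u (u ^ ((5:ℝ) / 3) / α ^ ((2:ℝ) / 3)) := by
  have e : u * (u / α) ^ ((2:ℝ) / 3) = u ^ ((5:ℝ) / 3) / α ^ ((2:ℝ) / 3) := by
    rw [Real.div_rpow hu hα.le, mul_div_assoc', show (5:ℝ) / 3 = 1 + 2 / 3 by norm_num,
      Real.rpow_add' hu (by norm_num), Real.rpow_one]
  rw [← e]
  unfold ramp
  split_ifs with h
  · exact (min_eq_right (mul_le_of_le_one_right hu
      (Real.rpow_le_one (by positivity) (by rw [div_le_one hα]; exact h.le) (by norm_num)))).symm
  · rw [mul_one]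
    exact (min_eq_left (le_mul_of_one_le_right hu
      (Real.one_le_rpow (by rw [le_div_iff₀ hα]; linarith) (by norm_num)))).symm

lemma ramp_div {α u : ℝ} (hα : 0 < α) (hu : 0 < u) :
    u / ramp α u = max u (α ^ ((2:ℝ) / 3) * u ^ ((1:ℝ) / 3)) := by
  have e : u / (u / α) ^ ((2:ℝ) / 3) = α ^ ((2:ℝ) / 3) * u ^ ((1:ℝ) / 3) := by
    rw [Real.div_rpow hu.le hα.le, div_div_eq_mul_div, show (1:ℝ) / 3 = 1 - 2 / 3 by norm_num,
      Real.rpow_sub hu, Real.rpow_one]
    ring
  rw [← e]
  unfold ramp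
  have hp : 0 < (u / α) ^ ((2:ℝ) / 3) := Real.rpow_pos_of_pos (by positivity) _
  split_ifs with h
  · refine (max_eq_right ?_).symm
    rw [le_div_iff₀ hp]
    exact mul_le_of_le_one_right hu.le
      (Real.rpow_le_one (by positivity) (by rw [div_le_one hα]; exact h.le) (by norm_num))
  · rw [div_one]
    refine (max_eq_left ?_).symm
    rw [div_le_iff₀ hp]
    exact le_mul_of_one_le_right hu.le
      (Real.one_le_rpow (by rw [le_div_iff₀ hα]; linarith) (by norm_num))

lemma int_Y {α : ℝ} (hα : 0 < α) (hα1 : α ≤ 1) :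
    ∫ v in (0:ℝ)..1, min v (v ^ ((5:ℝ) / 3) / α ^ ((2:ℝ) / 3)) = 1 / 2 - α ^ 2 / 8 := by
  have hc : Continuous fun v : ℝ => min v (v ^ ((5:ℝ) / 3) / α ^ ((2:ℝ) / 3)) :=
    continuous_id.min ((Real.continuous_rpow_const (by norm_num)).div_const _)
  rw [← intervalIntegral.integral_add_adjacent_intervals (hc.intervalIntegrable 0 α)
    (hc.intervalIntegrable α 1)]
  have h1 : ∫ v in (0:ℝ)..α, min v (v ^ ((5:ℝ) / 3) / α ^ ((2:ℝ) / 3)) =
      ∫ v in (0:ℝ)..α, v ^ ((5:ℝ) / 3) / α ^ ((2:ℝ) / 3) := by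
    refine intervalIntegral.integral_congr fun v hv => ?_
    rw [uIcc_of_le hα.le] at hv
    show min v _ = _
    rw [← ramp_mul hα hv.1]
    rcases hv.2.eq_or_lt with he | hl
    · subst he; simp [ramp, show (5:ℝ) / 3 = 1 + 2 / 3 by norm_num,
        Real.rpow_add' hv.1 (show (1:ℝ) + 2 / 3 ≠ 0 by norm_num), (Real.rpow_pos_of_pos hα _).ne']
    · rw [ramp, if_pos hl, Real.div_rpow hv.1 hα.le, mul_div_assoc',
        show (5:ℝ) / 3 = 1 + 2 / 3 by norm_num, Real.rpow_add' hv.1 (by norm_num), Real.rpow_one]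
  have h2 : ∫ v in α..1, min v (v ^ ((5:ℝ) / 3) / α ^ ((2:ℝ) / 3)) = ∫ v in α..1, v := by
    refine intervalIntegral.integral_congr fun v hv => ?_
    rw [uIcc_of_le hα1] at hv
    show min v _ = _
    rw [← ramp_mul hα (hα.le.trans hv.1), ramp, if_neg (not_lt.2 hv.1), mul_one]
  rw [h1, h2, intervalIntegral.integral_div, integral_rpow (Or.inl (by norm_num)), integral_id,
    Real.zero_rpow (by norm_num), show (5:ℝ) / 3 + 1 = 2 + 2 / 3 by norm_num, Real.rpow_add hα,
    Real.rpow_two]
  have := (Real.rpow_pos_of_pos hα ((2:ℝ) / 3)).ne'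
  field_simp
  ring

lemma int_X {α : ℝ} (hα : 0 < α) (hα1 : α ≤ 1) :
    ∫ v in (0:ℝ)..1, max v (α ^ ((2:ℝ) / 3) * v ^ ((1:ℝ) / 3)) = 1 / 2 + α ^ 2 / 4 := by
  have hc : Continuous fun v : ℝ => max v (α ^ ((2:ℝ) / 3) * v ^ ((1:ℝ) / 3)) :=
    continuous_id.max (continuous_const.mul (Real.continuous_rpow_const (by norm_num)))
  rw [← intervalIntegral.integral_add_adjacent_intervals (hc.intervalIntegrable 0 α)
    (hc.intervalIntegrable α 1)]
  have h1 : ∫ v in (0:ℝ)..α, max v (α ^ ((2:ℝ) / 3) * v ^ ((1:ℝ) / 3)) =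
      ∫ v in (0:ℝ)..α, α ^ ((2:ℝ) / 3) * v ^ ((1:ℝ) / 3) := by
    refine intervalIntegral.integral_congr fun v hv => max_eq_right ?_
    rw [uIcc_of_le hα.le] at hv
    calc v = v ^ ((2:ℝ) / 3) * v ^ ((1:ℝ) / 3) := by
          rw [← Real.rpow_add' hv.1 (by norm_num)]; norm_num
      _ ≤ _ := mul_le_mul_of_nonneg_right (Real.rpow_le_rpow hv.1 hv.2 (by norm_num))
          (Real.rpow_nonneg hv.1 _)
  have h2 : ∫ v in α..1, max v (α ^ ((2:ℝ) / 3) * v ^ ((1:ℝ) / 3)) = ∫ v in α..1, v := by
    refine intervalIntegral.integral_congr fun v hv => max_eq_left ?_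
    rw [uIcc_of_le hα1] at hv
    calc α ^ ((2:ℝ) / 3) * v ^ ((1:ℝ) / 3) ≤ v ^ ((2:ℝ) / 3) * v ^ ((1:ℝ) / 3) :=
          mul_le_mul_of_nonneg_right (Real.rpow_le_rpow hα.le hv.1 (by norm_num))
            (Real.rpow_nonneg (hα.le.trans hv.1) _)
      _ = v := by rw [← Real.rpow_add' (hα.le.trans hv.1) (by norm_num)]; norm_num
  rw [h1, h2, intervalIntegral.integral_const_mul, integral_rpow (Or.inl (by norm_num)), integral_id,
    Real.zero_rpow (by norm_num), sub_zero, mul_div_assoc', ← Real.rpow_add hα]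
  norm_num
  ring

/-- The tail inequality. -/
theorem tailBound : TailBound := by
  intro h a ha hc hanti hnn hpos
  set H := h 0 with hH
  have hH0 : 0 < H := hpos 0 ⟨le_rfl, ha⟩
  set V := ∫ t in (0:ℝ)..a, h t ^ 2 with hV
  have hV0 : 0 < V := tl_pos hanti hnn hpos ⟨le_rfl, ha⟩
  have hT0 : tl h a 0 = V := rfl
  set u : ℝ → ℝ := fun t => tl h a t / V with hu
  set w : ℝ → ℝ := fun t => h t ^ 2 / H ^ 2 with hw
  have hw1 : ∀ t ∈ Icc 0 a, w t ≤ 1 := fun t ht => by
    rw [hw]; simp only
    rw [div_le_one (by positivity)]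
    exact pow_le_pow_left₀ (hnn t ht) (hanti ⟨le_rfl, ha.le⟩ ht ht.1) 2
  have hsub : ∀ F : ℝ → ℝ, Continuous F →
      ∫ t in (0:ℝ)..a, F (u t) * (h t ^ 2 / V) = ∫ v in (0:ℝ)..1, F v := by
    intro F hF
    have h1 := subst_tail ha hc hanti hnn (F := fun x => F (x / V)) (hF.comp (continuous_id.div_const V))
    rw [intervalIntegral.integral_comp_div F hV0.ne', hT0, zero_div, div_self hV0.ne'] at h1
    simp only [smul_eq_mul] at h1
    simp only [hu, ← mul_div_assoc, intervalIntegral.integral_div]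
    rw [h1]; field_simp
  set m1 := ∫ t in (0:ℝ)..a, t * h t ^ 2 with hm1
  set Z := ∫ t in (0:ℝ)..a, h t ^ 4 * tl h a t with hZ
  set X := ∫ t in (0:ℝ)..a, u t * (H ^ 2 / V) with hX
  set Y := ∫ t in (0:ℝ)..a, w t * u t * (h t ^ 2 / V) with hY
  have eX : m1 = X * (V ^ 2 / H ^ 2) := by
    rw [hX, hu, intervalIntegral.integral_mul_const, intervalIntegral.integral_div,
      moment_eq_tail ha hc hanti hnn]
    field_simp
    exact hm1
  have eY : Z = Y * (H ^ 2 * V ^ 2) := by
    rw [hY, hZ, ← intervalIntegral.integral_mul_const]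
    refine intervalIntegral.integral_congr fun t _ => ?_
    simp only [hw, hu]; field_simp
  have key : X * (5 * Y - X) ≤ 225 / 224 := by
    have hIoo : ∀ t ∈ Ioo 0 a, 0 < u t ∧ 0 < w t ∧ u t ≤ 1 := fun t ht =>
      ⟨div_pos (tl_pos hanti hnn hpos ⟨ht.1.le, ht.2⟩) hV0,
        div_pos (pow_pos (hpos t ⟨ht.1.le, ht.2⟩) 2) (by positivity),
        (div_le_one hV0).2 (hT0 ▸ tl_anti hanti hnn ⟨le_rfl, ha.le⟩ ⟨ht.1.le, ht.2.le⟩ ht.1.le)⟩
    have hu0 : ∀ t ∈ Icc 0 a, 0 ≤ u t := fun t ht => div_nonneg (tl_nonneg ha ht) hV0.le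
    have hucont : ContinuousOn u (Icc 0 a) := (tl_cont ha hanti hnn).div_const V
    have hri : IntervalIntegrable (fun t => h t ^ 2 / V) volume 0 a :=
      (integrable_sq hanti hnn le_rfl ha.le le_rfl).div_const V
    have hFi : ∀ F : ℝ → ℝ, Continuous F →
        IntervalIntegrable (fun t => F (u t) * (h t ^ 2 / V)) volume 0 a := fun F hF => by
      refine hri.continuousOn_mul ?_
      rw [uIcc_of_le ha.le]
      exact hF.comp_continuousOn hucont
    have hwanti : AntitoneOn w (Icc 0 a) := fun s hs t ht hst =>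
      div_le_div_of_nonneg_right (pow_le_pow_left₀ (hnn t ht) (hanti hs ht hst) 2) (sq_nonneg H)
    have hYi : IntervalIntegrable (fun t => w t * u t * (h t ^ 2 / V)) volume 0 a := by
      have h4 : IntervalIntegrable (fun t => h t ^ 4) volume 0 a := by
        refine AntitoneOn.intervalIntegrable ?_
        rw [uIcc_of_le ha.le]
        exact fun s hs t ht hst => pow_le_pow_left₀ (hnn t ht) (hanti hs ht hst) 4
      have := h4.continuousOn_mul (g := fun t => u t / (H ^ 2 * V))
        (by rw [uIcc_of_le ha.le]; exact hucont.div_const _)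
      refine this.congr fun t _ => ?_
      simp only [hw]; field_simp
    have hXi : IntervalIntegrable (fun t => u t * (H ^ 2 / V)) volume 0 a :=
      (hucont.intervalIntegrable_of_Icc ha.le).mul_const _
    have hwlow : ∀ t ∈ Ioo 0 a, u t ^ ((2:ℝ) / 3) ≤ w t := by
      intro t ht
      have h3 := tl_secant hc hanti hnn le_rfl ht.1 ht.2.le
      rw [hT0] at h3
      have hu' : u t ≤ (h t / H) ^ 3 := by
        rw [hu]; simp only
        rw [div_pow, div_le_div_iff₀ hV0 (by positivity)]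
        linarith
      calc u t ^ ((2:ℝ) / 3) ≤ ((h t / H) ^ 3) ^ ((2:ℝ) / 3) :=
            Real.rpow_le_rpow (hIoo t ht).1.le hu' (by norm_num)
        _ = w t := by
            rw [← Real.rpow_natCast, ← Real.rpow_mul (div_nonneg (hpos t ⟨ht.1.le, ht.2⟩).le hH0.le)]
            norm_num [hw, div_pow]
    have hY1 : Y ≤ 1 / 2 := by
      have : Y ≤ ∫ t in (0:ℝ)..a, (fun v => v) (u t) * (h t ^ 2 / V) :=
        intervalIntegral.integral_mono_on ha.le hYi (hFi (fun v => v) continuous_id) fun t ht =>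
          mul_le_mul_of_nonneg_right (mul_le_of_le_one_left (hu0 t ht) (hw1 t ht))
            (div_nonneg (sq_nonneg _) hV0.le)
      rw [hsub (fun v => v) continuous_id, integral_id] at this
      linarith
    have hY2 : 3 / 8 ≤ Y := by
      have hc53 : Continuous fun v : ℝ => v ^ ((5:ℝ) / 3) := Real.continuous_rpow_const (by norm_num)
      have : ∫ t in (0:ℝ)..a, (fun v => v ^ ((5:ℝ) / 3)) (u t) * (h t ^ 2 / V) ≤ Y := by
        refine intervalIntegral.integral_mono_on_of_le_Ioo ha.le (hFi _ hc53) hYi fun t ht => ?_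
        refine mul_le_mul_of_nonneg_right ?_ (div_nonneg (sq_nonneg _) hV0.le)
        simp only
        rw [show (5:ℝ) / 3 = 2 / 3 + 1 by norm_num, Real.rpow_add (hIoo t ht).1, Real.rpow_one]
        exact mul_le_mul_of_nonneg_right (hwlow t ht) (hIoo t ht).1.le
      rw [hsub _ hc53, integral_rpow (Or.inl (by norm_num))] at this
      norm_num at this
      linarith
    -- the model parameter
    set z := 8 * (1 / 2 - Y) with hz
    have hz0 : 0 ≤ z := by rw [hz]; linarith
    have hz1 : z ≤ 1 := by rw [hz]; linarith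
    have hX0 : 0 ≤ X := intervalIntegral.integral_nonneg ha.le fun t ht =>
      mul_nonneg (hu0 t ht) (by positivity)
    have hXle : X ≤ 1 / 2 + z / 4 := by
      rcases hz0.eq_or_lt with hzz | hzpos
      · -- here `h` is constant
        have hY' : Y = 1 / 2 := by rw [hz] at hzz; linarith
        have hd : ∫ t in (0:ℝ)..a, ((fun v => v) (u t) * (h t ^ 2 / V) - w t * u t * (h t ^ 2 / V)) = 0 := by
          rw [intervalIntegral.integral_sub (hFi (fun v => v) continuous_id) hYi, hsub (fun v => v) continuous_id,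
            integral_id, ← hY, hY']
          norm_num
        have hae := (intervalIntegral.integral_eq_zero_iff_of_le_of_nonneg_ae ha.le ?_
          ((hFi (fun v => v) continuous_id).sub hYi)).1 hd
        · have : X = ∫ t in (0:ℝ)..a, (fun v => v) (u t) * (h t ^ 2 / V) := by
            refine intervalIntegral.integral_congr_ae ?_
            rw [uIoc_of_le ha.le]
            have h1 := (ae_restrict_iff' measurableSet_Ioc).1 hae
            filter_upwards [h1, (Set.countable_singleton a).ae_notMem volume] with t ht hne hmem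
            have hio : t ∈ Ioo 0 a := ⟨hmem.1, lt_of_le_of_ne hmem.2 (by simpa using hne)⟩
            have h2 := ht hmem
            simp only [Pi.zero_apply] at h2
            have h3 : u t * (h t ^ 2 / V) * (1 - w t) = 0 := by rw [← h2]; ring
            have hne' : u t * (h t ^ 2 / V) ≠ 0 :=
              (mul_pos (hIoo t hio).1 (div_pos (pow_pos (hpos t ⟨hio.1.le, hio.2⟩) 2) hV0)).ne'
            have hw' : w t = 1 := by
              have := (mul_eq_zero.1 h3).resolve_left hne'
              linarith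
            rw [hw] at hw'; simp only at hw'
            rw [div_eq_one_iff_eq (by positivity)] at hw'
            simp [hw']
          rw [this, hsub (fun v => v) continuous_id, integral_id, ← hzz]
          norm_num
        · refine (ae_restrict_iff' measurableSet_Ioc).2 (Filter.Eventually.of_forall fun t ht => ?_)
          simp only [Pi.zero_apply, sub_nonneg]
          exact mul_le_mul_of_nonneg_right
            (mul_le_of_le_one_left (hu0 t ⟨ht.1.le, ht.2⟩) (hw1 t ⟨ht.1.le, ht.2⟩))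
            (div_nonneg (sq_nonneg _) hV0.le)
      set α := Real.sqrt z with hα
      have hα0 : 0 < α := Real.sqrt_pos.2 hzpos
      have hα2 : α ^ 2 = z := Real.sq_sqrt hz0
      have hα1 : α ≤ 1 := by rw [hα]; exact Real.sqrt_le_one.2 hz1
      set Fy : ℝ → ℝ := fun v => min v (v ^ ((5:ℝ) / 3) / α ^ ((2:ℝ) / 3)) with hFy
      set Fx : ℝ → ℝ := fun v => max v (α ^ ((2:ℝ) / 3) * v ^ ((1:ℝ) / 3)) with hFx
      have hFyc : Continuous Fy :=
        continuous_id.min ((Real.continuous_rpow_const (by norm_num)).div_const _)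
      have hFxc : Continuous Fx :=
        continuous_id.max (continuous_const.mul (Real.continuous_rpow_const (by norm_num)))
      have iY : ∫ t in (0:ℝ)..a, Fy (u t) * (h t ^ 2 / V) = Y := by
        rw [hsub Fy hFyc, hFy, int_Y hα0 hα1, hα2, hz]; ring
      have iX : ∫ t in (0:ℝ)..a, Fx (u t) * (h t ^ 2 / V) = 1 / 2 + z / 4 := by
        rw [hsub Fx hFxc, hFx, int_X hα0 hα1, hα2]
      rw [← iX]
      set r : ℝ → ℝ := fun t => ramp α (u t) with hr
      -- integrands on the open interval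
      have eFx : ∀ t ∈ Ioo 0 a, Fx (u t) = u t / r t := fun t ht => by
        rw [hr, hFx]; simp only; rw [ramp_div hα0 (hIoo t ht).1]
      have eFy : ∀ t ∈ Ioo 0 a, Fy (u t) = u t * r t := fun t ht => by
        rw [hr, hFy]; simp only; rw [ramp_mul hα0 (hIoo t ht).1.le]
      have hrpos : ∀ t ∈ Ioo 0 a, 0 < r t := fun t ht => by
        rw [hr]; simp only [ramp]; split_ifs
        · exact Real.rpow_pos_of_pos (div_pos (hIoo t ht).1 hα0) _
        · exact one_pos
      set D := {t | t ∈ Ioo 0 a ∧ r t ≤ w t ∧ u t < α} with hD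
      have hfinal : ∀ s t, s ∈ D → t ∈ Ioo 0 a → s < t → t ∈ D := by
        intro s t hs ht hst
        have hut : u t ≤ u s := div_le_div_of_nonneg_right
          (tl_anti hanti hnn ⟨hs.1.1.le, hs.1.2.le⟩ ⟨ht.1.le, ht.2.le⟩ hst.le) hV0.le
        refine ⟨ht, ?_, lt_of_le_of_lt hut hs.2.2⟩
        have h3 := tl_secant hc hanti hnn hs.1.1.le hst ht.2.le
        have hr' := hs.2.1
        simp only [hr, ramp, if_pos hs.2.2, if_pos (lt_of_le_of_lt hut hs.2.2)] at hr' ⊢
        have hs0 := hpos s ⟨hs.1.1.le, hs.1.2⟩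
        have ht0 := hpos t ⟨ht.1.le, ht.2⟩
        have hq : u t / α ≤ u s / α * (h t / h s) ^ 3 := by
          rw [hu]; simp only
          rw [div_pow, div_div, div_div, div_mul_div_comm,
            div_le_div_iff₀ (by positivity) (by positivity)]
          nlinarith [mul_le_mul_of_nonneg_right h3 (mul_pos hV0 hα0).le]
        calc (u t / α) ^ ((2:ℝ) / 3) ≤ (u s / α * (h t / h s) ^ 3) ^ ((2:ℝ) / 3) :=
              Real.rpow_le_rpow (div_nonneg (hIoo t ht).1.le hα0.le) hq (by norm_num)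
          _ = (u s / α) ^ ((2:ℝ) / 3) * (h t / h s) ^ 2 := by
              rw [Real.mul_rpow (div_nonneg (hIoo s hs.1).1.le hα0.le) (by positivity),
                ← Real.rpow_natCast (h t / h s) 3, ← Real.rpow_mul (by positivity)]
              norm_num
          _ ≤ w s * (h t / h s) ^ 2 := mul_le_mul_of_nonneg_right hr' (sq_nonneg _)
          _ = w t := by simp only [hw]; field_simp
      have hzero : ∫ t in (0:ℝ)..a, (Fy (u t) * (h t ^ 2 / V) - w t * u t * (h t ^ 2 / V)) = 0 := by
        rw [intervalIntegral.integral_sub (hFi Fy hFyc) hYi, iY, ← hY, sub_self]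
      have hprod : ∀ s t, s ∈ Ioo 0 a → t ∈ Ioo 0 a → s ≤ t → w t * r t ≤ w s * r s := by
        intro s t hs ht hst
        refine mul_le_mul (hwanti ⟨hs.1.le, hs.2.le⟩ ⟨ht.1.le, ht.2.le⟩ hst) ?_ (hrpos t ht).le
          (hIoo s hs).2.1.le
        exact ramp_mono hα0 (hIoo t ht).1.le (div_le_div_of_nonneg_right
          (tl_anti hanti hnn ⟨hs.1.le, hs.2.le⟩ ⟨ht.1.le, ht.2.le⟩ hst) hV0.le)
      have eXint : ∀ t ∈ Ioo 0 a, u t * (H ^ 2 / V) = u t / w t * (h t ^ 2 / V) := fun t ht => by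
        have := (hpos t ⟨ht.1.le, ht.2⟩).ne'
        simp only [hw]; field_simp
      rcases D.eq_empty_or_nonempty with he | hne
      · -- then `w ≤ r`, hence equality almost everywhere
        have hle : ∀ t ∈ Ioo 0 a, w t ≤ r t := by
          intro t ht
          rcases lt_or_ge (u t) α with hlt | hge
          · by_contra hcn
            exact (eq_empty_iff_forall_notMem.1 he t) ⟨ht, (not_le.1 hcn).le, hlt⟩
          · rw [hr]; simp only [ramp, if_neg (not_lt.2 hge)]; exact hw1 t ⟨ht.1.le, ht.2.le⟩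
        have hae := (intervalIntegral.integral_eq_zero_iff_of_le_of_nonneg_ae ha.le ?_
          ((hFi Fy hFyc).sub hYi)).1 hzero
        · refine le_of_eq (intervalIntegral.integral_congr_ae ?_)
          rw [uIoc_of_le ha.le]
          have h1 := (ae_restrict_iff' measurableSet_Ioc).1 hae
          filter_upwards [h1, (Set.countable_singleton a).ae_notMem volume] with t ht hne hmem
          have hio : t ∈ Ioo 0 a := ⟨hmem.1, lt_of_le_of_ne hmem.2 (by simpa using hne)⟩
          have h2 := ht hmem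
          simp only [Pi.zero_apply] at h2
          rw [eFy t hio] at h2
          have h3 : u t * (h t ^ 2 / V) * (r t - w t) = 0 := by rw [← h2]; ring
          have hne' : u t * (h t ^ 2 / V) ≠ 0 :=
            (mul_pos (hIoo t hio).1 (div_pos (pow_pos (hpos t ⟨hio.1.le, hio.2⟩) 2) hV0)).ne'
          have hwr : r t = w t := by
            have := (mul_eq_zero.1 h3).resolve_left hne'
            linarith
          rw [eXint t hio, eFx t hio, hwr]
        · refine (ae_restrict_iff' measurableSet_Ioc).2 ?_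
          filter_upwards [(Set.countable_singleton a).ae_notMem volume] with t hne hmem
          have hio : t ∈ Ioo 0 a := ⟨hmem.1, lt_of_le_of_ne hmem.2 (by simpa using hne)⟩
          simp only [Pi.zero_apply, sub_nonneg, eFy t hio]
          refine mul_le_mul_of_nonneg_right ?_ (div_nonneg (sq_nonneg _) hV0.le)
          rw [mul_comm]
          exact mul_le_mul_of_nonneg_left (hle t hio) (hIoo t hio).1.le
      set θ := sSup ((fun t => w t * r t) '' D) with hθ
      have hθb : BddAbove ((fun t => w t * r t) '' D) := ⟨1, by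
        rintro v ⟨t, ht, rfl⟩
        exact mul_le_one₀ (hw1 t ⟨ht.1.1.le, ht.1.2.le⟩) (hrpos t ht.1).le
          (ramp_le_one hα0 (hIoo t ht.1).1.le)⟩
      have hθ0 : 0 < θ := by
        obtain ⟨t, ht⟩ := hne
        exact lt_of_lt_of_le (mul_pos (hIoo t ht.1).2.1 (hrpos t ht.1)) (le_csSup hθb ⟨t, ht, rfl⟩)
      have hpt : ∀ t ∈ Ioo 0 a, θ * (u t * (H ^ 2 / V) - Fx (u t) * (h t ^ 2 / V)) ≤
          Fy (u t) * (h t ^ 2 / V) - w t * u t * (h t ^ 2 / V) := by
        intro t ht
        obtain ⟨hut, hwt, -⟩ := hIoo t ht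
        have hrt := hrpos t ht
        rw [eXint t ht, eFx t ht, eFy t ht]
        have hρ : 0 ≤ h t ^ 2 / V := div_nonneg (sq_nonneg _) hV0.le
        have e : θ * (u t / w t * (h t ^ 2 / V) - u t / r t * (h t ^ 2 / V)) =
            θ / (w t * r t) * ((r t - w t) * u t * (h t ^ 2 / V)) := by field_simp
        rw [e, show u t * r t * (h t ^ 2 / V) - w t * u t * (h t ^ 2 / V) =
          1 * ((r t - w t) * u t * (h t ^ 2 / V)) by ring]
        by_cases htD : t ∈ D
        · refine mul_le_mul_of_nonpos_right ?_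
            (mul_nonpos_of_nonpos_of_nonneg (mul_nonpos_of_nonpos_of_nonneg
              (sub_nonpos.2 htD.2.1) hut.le) hρ)
          rw [le_div_iff₀ (mul_pos hwt hrt), one_mul]
          exact le_csSup hθb ⟨t, htD, rfl⟩
        · have hθle : θ ≤ w t * r t := by
            refine csSup_le (hne.image _) ?_
            rintro v ⟨s, hs, rfl⟩
            refine hprod t s ht hs.1 ?_
            by_contra hcn
            exact htD (hfinal s t hs ht (not_le.1 hcn))
          have hwr : w t ≤ r t := by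
            rcases lt_or_ge (u t) α with hlt | hge
            · by_contra hcn
              exact htD ⟨ht, (not_le.1 hcn).le, hlt⟩
            · rw [hr]; simp only [ramp, if_neg (not_lt.2 hge)]; exact hw1 t ⟨ht.1.le, ht.2.le⟩
          refine mul_le_mul_of_nonneg_right ?_
            (mul_nonneg (mul_nonneg (sub_nonneg.2 hwr) hut.le) hρ)
          rw [div_le_one (mul_pos hwt hrt)]
          exact hθle
      have hint : θ * (X - ∫ t in (0:ℝ)..a, Fx (u t) * (h t ^ 2 / V)) ≤ 0 := by
        rw [hX, ← intervalIntegral.integral_sub hXi (hFi Fx hFxc),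
          ← intervalIntegral.integral_const_mul]
        refine le_of_le_of_eq (intervalIntegral.integral_mono_on_of_le_Ioo ha.le
          ((hXi.sub (hFi Fx hFxc)).const_mul θ) ((hFi Fy hFyc).sub hYi) hpt) hzero
      by_contra hcn
      nlinarith [mul_pos hθ0 (sub_pos.2 (not_le.1 hcn))]
    have hYz : Y = 1 / 2 - z / 8 := by rw [hz]; ring
    calc X * (5 * Y - X) ≤ (1 / 2 + z / 4) * (5 * Y - (1 / 2 + z / 4)) := by nlinarith
      _ ≤ 225 / 224 := by rw [hYz]; nlinarith [sq_nonneg (z - 1 / 7)]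
  rw [eX, eY]
  have e : X * (V ^ 2 / H ^ 2) * (5 * (Y * (H ^ 2 * V ^ 2)) - X * (V ^ 2 / H ^ 2) * H ^ 4) =
      X * (5 * Y - X) * V ^ 4 := by field_simp
  rw [e]
  exact mul_le_mul_of_nonneg_right key (by positivity)

end Vale.Agent.P254.Three
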