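import Vale.Agent.P254.Three.Root
import Vale.Agent.P254.Three.OneD

/-!
From the two-slice inequality to the bound on the product of the three moments.
-/

open MeasureTheory Set Filter
open scoped Topology

namespace Vale.Agent.P254.Three

namespace Profile

variable (P : Profile)

/-- The right derivative of the root. -/
noncomputable def p (s : ℝ) : ℝ := derivWithin P.h (Ioi s) s

lemma concave_h : ConcaveOn ℝ (Icc 0 P.a) P.h := (rootConcave P).1

lemma anti_h : AntitoneOn P.h (Icc 0 P.a) := (rootConcave P).2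

lemma pos_h : ∀ t ∈ Ico 0 P.a, 0 < P.h t := fun t ht => Real.sqrt_pos.2 (P.pos t ht.1 ht.2)

lemma hasDeriv_h {s : ℝ} (hs : s ∈ Ioo 0 P.a) : HasDerivWithinAt P.h (P.p s) (Ioi s) s := by
  have hi : s ∈ interior (Icc 0 P.a) := by rwa [interior_Icc]
  have := (P.concave_h.neg.differentiableWithinAt_Ioi_of_mem_interior hi).neg
  simp only [Pi.neg_def, neg_neg] at this
  exact this.hasDerivWithinAt

lemma tangent_h {s x : ℝ} (hs : s ∈ Ioo 0 P.a) (hsx : s < x) (hxa : x ≤ P.a) :
    P.h x ≤ P.h s + P.p s * (x - s) := by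
  have h1 := P.concave_h.slope_le_of_hasDerivWithinAt_Ioi ⟨hs.1.le, hs.2.le⟩
    ⟨hs.1.le.trans hsx.le, hxa⟩ hsx (P.hasDeriv_h hs)
  rw [slope_def_field, div_le_iff₀ (sub_pos.2 hsx)] at h1
  linarith

/-- The two-slice inequality, differentiated at the first slice. -/
lemma cross_le {s t : ℝ} (hs : s ∈ Ioo 0 P.a) (hst : s < t) (hta : t ≤ P.a) :
    P.M s * P.Φ t + P.M t * P.Φ s ≤
      P.A s * P.A t * (P.A s + P.h s * P.p s * (t - s)) := by
  set Q := P.M s * P.Φ t + P.M t * P.Φ s with hQ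
  set F : ℝ → ℝ := fun u => 2 * (1 - u) * Q - P.A s * P.A t *
    (P.A s * (2 - u) + 2 * P.h s * P.p s * (t - s) + u * (P.p s * (t - s)) ^ 2) with hF
  have hFu : ∀ u ∈ Ioo (0:ℝ) 1, F u ≤ 0 := by
    intro u hu
    have hpb := pairBound P s t (1 - u) hs.1.le hst hta (sub_pos.2 hu.2) (by linarith [hu.1])
    rw [sub_sub_cancel] at hpb
    set m := (1 - u) * s + u * t with hm
    have hsm : s < m := by nlinarith [mul_pos hu.1 (sub_pos.2 hst)]
    have hma : m ≤ P.a := by nlinarith [hu.1, hu.2, hs.2]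
    have ht1 := P.tangent_h hs hsm hma
    have hA : P.A m ≤ (P.h s + P.p s * (u * (t - s))) ^ 2 := by
      rw [← P.h_sq m]
      refine pow_le_pow_left₀ (P.h_nonneg m) (ht1.trans (le_of_eq ?_)) 2
      rw [hm]; ring
    have hPP : 0 ≤ P.A s * P.A t := mul_nonneg (P.A_nonneg _) (P.A_nonneg _)
    have h1 := hpb.trans (mul_le_mul_of_nonneg_right hA hPP)
    have h2 : 0 ≤ u ^ 2 * P.A t * (P.A s * P.A t) :=
      mul_nonneg (mul_nonneg (sq_nonneg _) (P.A_nonneg _)) hPP
    have h3 : u * F u ≤ 0 := by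
      rw [← hQ] at h1
      simp only [hF]
      rw [← P.h_sq s] at h1 h2 ⊢
      linear_combination h1 + h2
    exact nonpos_of_mul_nonpos_right h3 hu.1 |> id
  have hlim : Tendsto F (𝓝[>] 0) (𝓝 (F 0)) :=
    ((by fun_prop : Continuous F).tendsto 0).mono_left nhdsWithin_le_nhds
  have h0 : F 0 ≤ 0 := le_of_tendsto hlim
    (Filter.eventually_of_mem (Ioo_mem_nhdsGT one_pos) hFu)
  simp only [hF, sub_zero, zero_mul, add_zero, mul_one] at h0
  linarith

lemma measurable_A : Measurable P.A := by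
  have h : StronglyMeasurable (Function.uncurry P.G) := P.meas.stronglyMeasurable
  exact h.integral_prod_right.measurable

lemma measurable_h : Measurable P.h := P.measurable_A.sqrt

lemma M_anti : AntitoneOn P.M (Ici 0) := fun s hs t ht hst =>
  setIntegral_mono_on (P.integrable_xG ht) (P.integrable_xG hs) measurableSet_Ioi fun x hx =>
    mul_le_mul_of_nonneg_left (P.anti _ _ _ _ hs (le_of_lt hx) hst le_rfl) (le_of_lt hx)

lemma Φ_anti : AntitoneOn P.Φ (Ici 0) := fun s hs t ht hst =>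
  setIntegral_mono_on (P.integrable_G2 ht) (P.integrable_G2 hs) measurableSet_Ioi fun x hx =>
    pow_le_pow_left₀ (P.nonneg _ _) (P.anti _ _ _ _ hs (le_of_lt hx) hst le_rfl) 2

/-- The iterated tail. -/
noncomputable def R (s : ℝ) : ℝ := ∫ t in s..P.a, tl P.h P.a t

lemma cont_T : ContinuousOn (tl P.h P.a) (Icc 0 P.a) :=
  tl_cont P.a_pos P.anti_h fun t _ => P.h_nonneg t

lemma R_cont : ContinuousOn P.R (Icc 0 P.a) := by
  have hi := (P.cont_T.intervalIntegrable_of_Icc (μ := volume) P.a_pos.le).symm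
  have h1 := intervalIntegral.continuousOn_primitive_interval' hi
    (left_mem_uIcc (a := P.a) (b := (0:ℝ)))
  rw [uIcc_of_ge P.a_pos.le] at h1
  refine h1.neg.congr fun t _ => ?_
  simp [R, intervalIntegral.integral_symm P.a t]

lemma R_nonneg {s : ℝ} (hs : s ∈ Icc 0 P.a) : 0 ≤ P.R s :=
  intervalIntegral.integral_nonneg hs.2 fun _ hx =>
    tl_nonneg P.a_pos ⟨hs.1.trans hx.1, hx.2⟩

lemma R_deriv {s : ℝ} (hs : s ∈ Ioo 0 P.a) : HasDerivAt P.R (-tl P.h P.a s) s :=
  intervalIntegral.integral_hasDerivAt_left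
    ((P.cont_T.mono (Icc_subset_Icc hs.1.le le_rfl)).intervalIntegrable_of_Icc hs.2.le)
    ((P.cont_T.mono Ioo_subset_Icc_self).stronglyMeasurableAtFilter isOpen_Ioo s hs)
    (P.cont_T.continuousAt (Icc_mem_nhds hs.1 hs.2))

/-- The iterated tail as a weighted integral. -/
lemma R_eq {s : ℝ} (hs : s ∈ Ioo 0 P.a) :
    ∫ t in s..P.a, (t - s) * P.h t ^ 2 = P.R s := by
  have hT := P.cont_T.mono (Icc_subset_Icc hs.1.le le_rfl)
  have hi1 : IntervalIntegrable (tl P.h P.a) volume s P.a := hT.intervalIntegrable_of_Icc hs.2.le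
  have hi2 : IntervalIntegrable (fun t => (t - s) * P.h t ^ 2) volume s P.a :=
    (integrable_sq P.anti_h (fun t _ => P.h_nonneg t) hs.1.le hs.2.le le_rfl).continuousOn_mul
      (Continuous.continuousOn (by fun_prop))
  have h1 := intervalIntegral.integral_eq_sub_of_hasDerivAt_of_le hs.2.le
    (f := fun t => (t - s) * tl P.h P.a t)
    (f' := fun t => tl P.h P.a t - (t - s) * P.h t ^ 2)
    ((Continuous.continuousOn (by fun_prop)).mul hT)
    (fun t ht => (((hasDerivAt_id t).sub_const s).mul (tl_deriv P.concave_h P.anti_h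
      (fun t _ => P.h_nonneg t) ⟨hs.1.trans ht.1, ht.2⟩)).congr_deriv (by simp; ring))
    (hi1.sub hi2)
  rw [intervalIntegral.integral_sub hi1 hi2] at h1
  have : tl P.h P.a P.a = 0 := intervalIntegral.integral_same
  simp only [this, mul_zero, sub_self, zero_mul] at h1
  simp only [R]
  linarith

/-- The function integrated by parts. -/
noncomputable def g (s : ℝ) : ℝ := P.h s ^ 4 * P.R s

lemma h_cont_zero : ContinuousWithinAt P.h (Icc 0 P.a) 0 := by
  have ha := P.a_pos
  have hlow : ∀ x ∈ Icc 0 P.a, P.h 0 * (1 - x / P.a) ≤ P.h x := by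
    intro x hx
    have h3 := P.concave_h.2 (left_mem_Icc.2 ha.le) (right_mem_Icc.2 ha.le)
      (show 0 ≤ 1 - x / P.a from sub_nonneg.2 ((div_le_one ha).2 hx.2))
      (div_nonneg hx.1 ha.le) (by ring)
    simp only [smul_eq_mul, mul_zero, zero_add, div_mul_cancel₀ _ ha.ne'] at h3
    nlinarith [mul_nonneg (div_nonneg hx.1 ha.le) (P.h_nonneg P.a)]
  refine tendsto_of_tendsto_of_tendsto_of_le_of_le' ?_ tendsto_const_nhds
    (eventually_nhdsWithin_of_forall hlow)
    (eventually_nhdsWithin_of_forall fun x hx => P.anti_h (left_mem_Icc.2 ha.le) hx hx.1)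
  have : Continuous fun x => P.h 0 * (1 - x / P.a) := by fun_prop
  simpa using (this.tendsto 0).mono_left nhdsWithin_le_nhds

lemma g_cont : ContinuousOn P.g (Icc 0 P.a) := by
  intro x hx
  rcases hx.2.eq_or_lt with he | he
  · subst he
    have hR0 : P.R P.a = 0 := intervalIntegral.integral_same
    show Tendsto P.g _ (𝓝 (P.g P.a))
    rw [g, hR0, mul_zero]
    refine squeeze_zero' (eventually_nhdsWithin_of_forall fun y hy =>
      mul_nonneg (pow_nonneg (P.h_nonneg y) 4) (P.R_nonneg hy))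
      (eventually_nhdsWithin_of_forall fun y hy => mul_le_mul_of_nonneg_right
        (pow_le_pow_left₀ (P.h_nonneg y) (P.anti_h (left_mem_Icc.2 P.a_pos.le) hy hy.1) 4)
        (P.R_nonneg hy)) ?_
    have h1 : Tendsto P.R (𝓝[Icc 0 P.a] P.a) (𝓝 0) := by
      have := (P.R_cont P.a hx).tendsto
      rwa [hR0] at this
    simpa using h1.const_mul (P.h 0 ^ 4)
  · rcases hx.1.eq_or_lt with h0 | h0
    · subst h0
      exact (P.h_cont_zero.pow 4).mul (P.R_cont 0 hx)
    · exact (((cont_Ioo P.concave_h).continuousAt (Ioo_mem_nhds h0 he)).continuousWithinAt.pow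
        4).mul (P.R_cont x hx)

lemma g_deriv {s : ℝ} (hs : s ∈ Ioo 0 P.a) :
    HasDerivWithinAt P.g
      (4 * P.h s ^ 3 * P.p s * P.R s - P.h s ^ 4 * tl P.h P.a s) (Ioi s) s := by
  refine (((P.hasDeriv_h hs).pow 4).mul (P.R_deriv hs).hasDerivWithinAt).congr_deriv ?_
  simp; ring

lemma p_nonpos {s : ℝ} (hs : s ∈ Ioo 0 P.a) : P.p s ≤ 0 := by
  have hd := P.hasDeriv_h hs
  rw [hasDerivWithinAt_iff_tendsto_slope] at hd
  simp only [mem_Ioi, lt_self_iff_false, not_false_eq_true, sdiff_singleton_eq_self] at hd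
  refine le_of_tendsto hd ?_
  filter_upwards [Ioc_mem_nhdsGT hs.2] with x hx
  rw [slope_def_field]
  exact div_nonpos_of_nonpos_of_nonneg (sub_nonpos.2 (P.anti_h ⟨hs.1.le, hs.2.le⟩
    ⟨hs.1.le.trans hx.1.le, hx.2⟩ hx.1.le)) (sub_nonneg.2 hx.1.le)

lemma dgi : IntegrableOn
    (fun s => 4 * P.h s ^ 3 * P.p s * P.R s - P.h s ^ 4 * tl P.h P.a s) (Ioc 0 P.a) := by
  have := intervalIntegral.integrableOn_deriv_right_of_nonneg P.g_cont.neg
    (fun s hs => (P.g_deriv hs).neg)
    (fun s hs => by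
      have h1 : 4 * P.h s ^ 3 * P.p s * P.R s ≤ 0 :=
        mul_nonpos_of_nonpos_of_nonneg (mul_nonpos_of_nonneg_of_nonpos
          (mul_nonneg (by norm_num) (pow_nonneg (P.h_nonneg s) 3)) (P.p_nonpos hs))
          (P.R_nonneg ⟨hs.1.le, hs.2.le⟩)
      have h2 : 0 ≤ P.h s ^ 4 * tl P.h P.a s :=
        mul_nonneg (pow_nonneg (P.h_nonneg s) 4) (tl_nonneg P.a_pos ⟨hs.1.le, hs.2.le⟩)
      linarith)
  exact integrable_neg_iff.1 this

lemma hTi : IntervalIntegrable (fun s => P.h s ^ 4 * tl P.h P.a s) volume 0 P.a := by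
  have h4 : IntervalIntegrable (fun t => P.h t ^ 4) volume 0 P.a := by
    refine AntitoneOn.intervalIntegrable ?_
    rw [uIcc_of_le P.a_pos.le]
    exact fun s hs t ht hst => pow_le_pow_left₀ (P.h_nonneg t) (P.anti_h hs ht hst) 4
  exact h4.mul_continuousOn (by rw [uIcc_of_le P.a_pos.le]; exact P.cont_T)

lemma hpi : IntervalIntegrable (fun s => P.h s ^ 3 * P.p s * P.R s) volume 0 P.a := by
  have h1 : IntervalIntegrable
      (fun s => 4 * P.h s ^ 3 * P.p s * P.R s - P.h s ^ 4 * tl P.h P.a s) volume 0 P.a :=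
    (intervalIntegrable_iff_integrableOn_Ioc_of_le P.a_pos.le).2 P.dgi
  refine ((h1.add P.hTi).div_const 4).congr fun s _ => ?_
  ring

lemma parts : 4 * (∫ s in (0:ℝ)..P.a, P.h s ^ 3 * P.p s * P.R s) =
    (∫ s in (0:ℝ)..P.a, P.h s ^ 4 * tl P.h P.a s) -
      (∫ t in (0:ℝ)..P.a, t * P.h t ^ 2) * P.h 0 ^ 4 := by
  have h1 : IntervalIntegrable
      (fun s => 4 * P.h s ^ 3 * P.p s * P.R s - P.h s ^ 4 * tl P.h P.a s) volume 0 P.a :=
    (intervalIntegrable_iff_integrableOn_Ioc_of_le P.a_pos.le).2 P.dgi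
  have h2 := intervalIntegral.integral_eq_sub_of_hasDeriv_right_of_le P.a_pos.le P.g_cont
    (fun s hs => P.g_deriv hs) h1
  have hR0 : P.R P.a = 0 := intervalIntegral.integral_same
  have hR1 : P.R 0 = ∫ t in (0:ℝ)..P.a, t * P.h t ^ 2 :=
    moment_eq_tail P.a_pos P.concave_h P.anti_h fun t _ => P.h_nonneg t
  have e : ∀ s, 4 * P.h s ^ 3 * P.p s * P.R s = 4 * (P.h s ^ 3 * P.p s * P.R s) := fun s => by ring
  simp only [e] at h2
  rw [intervalIntegral.integral_sub (P.hpi.const_mul 4) P.hTi, intervalIntegral.integral_const_mul]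
    at h2
  simp only [g, hR0, hR1, mul_zero, zero_sub] at h2
  linarith

end Profile

/-- A product of integrals split along the diagonal. -/
lemma split_product {M N : ℝ → ℝ} {a : ℝ} (ha : 0 ≤ a) (hM : IntervalIntegrable M volume 0 a)
    (hN : IntervalIntegrable N volume 0 a) :
    (∫ t in (0:ℝ)..a, M t) * (∫ t in (0:ℝ)..a, N t) =
      ∫ s in (0:ℝ)..a, (M s * (∫ t in s..a, N t) + N s * ∫ t in s..a, M t) := by
  have hM' := (intervalIntegrable_iff_integrableOn_Ioc_of_le ha).1 hM
  have hN' := (intervalIntegrable_iff_integrableOn_Ioc_of_le ha).1 hN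
  have hprod : Integrable (fun p : ℝ × ℝ => M p.1 * N p.2)
      ((volume.restrict (Ioc 0 a)).prod (volume.restrict (Ioc 0 a))) := hM'.mul_prod hN'
  have hL : MeasurableSet {p : ℝ × ℝ | p.2 ≤ p.1} := measurableSet_le measurable_snd measurable_fst
  have hsub : ∀ {s : ℝ}, s ∈ Icc 0 a → (uIcc 0 s ⊆ uIcc 0 a ∧ uIcc s a ⊆ uIcc 0 a) := fun hs => by
    rw [uIcc_of_le ha, uIcc_of_le hs.1, uIcc_of_le hs.2]
    exact ⟨Icc_subset_Icc le_rfl hs.2, Icc_subset_Icc hs.1 le_rfl⟩
  have hsw := integral_integral_swap (f := fun s t => {p : ℝ × ℝ | p.2 ≤ p.1}.indicator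
    (fun p : ℝ × ℝ => M p.1 * N p.2) (s, t)) (hprod.indicator hL)
  have e1 : ∀ s ∈ Ioc 0 a, ∫ t in Ioc 0 a, {p : ℝ × ℝ | p.2 ≤ p.1}.indicator
      (fun p : ℝ × ℝ => M p.1 * N p.2) (s, t) = M s * ∫ t in (0:ℝ)..s, N t := by
    intro s hs
    rw [intervalIntegral.integral_of_le hs.1.le, ← integral_const_mul,
      ← integral_indicator measurableSet_Ioc, ← integral_indicator measurableSet_Ioc]
    refine integral_congr_ae (Eventually.of_forall fun t => ?_)
    simp only [indicator_apply, mem_Ioc, mem_ofPred_eq]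
    by_cases h1 : 0 < t <;> by_cases h2 : t ≤ s <;>
      simp [h1, h2, le_trans _ hs.2]
  have e2 : ∀ t ∈ Ioc 0 a, ∫ s in Ioc 0 a, {p : ℝ × ℝ | p.2 ≤ p.1}.indicator
      (fun p : ℝ × ℝ => M p.1 * N p.2) (s, t) = N t * ∫ s in t..a, M s := by
    intro t ht
    rw [intervalIntegral.integral_of_le ht.2, ← integral_const_mul,
      setIntegral_congr_set (Ioo_ae_eq_Ioc (a := t) (b := a)).symm,
      setIntegral_congr_set (Ioo_ae_eq_Icc (a := t) (b := a)),
      ← integral_indicator measurableSet_Ioc, ← integral_indicator measurableSet_Icc]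
    refine integral_congr_ae (Eventually.of_forall fun s => ?_)
    simp only [indicator_apply, mem_Ioc, mem_Icc, mem_ofPred_eq]
    by_cases h1 : t ≤ s <;> by_cases h2 : s ≤ a <;>
      simp [h1, h2, lt_of_lt_of_le ht.1, mul_comm]
  rw [setIntegral_congr_fun measurableSet_Ioc e1, setIntegral_congr_fun measurableSet_Ioc e2,
    ← intervalIntegral.integral_of_le ha, ← intervalIntegral.integral_of_le ha] at hsw
  have hc1 : ContinuousOn (fun s => ∫ t in (0:ℝ)..s, N t) (uIcc 0 a) :=
    intervalIntegral.continuousOn_primitive_interval' hN left_mem_uIcc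
  have hc2 : ∀ {F : ℝ → ℝ}, IntervalIntegrable F volume 0 a →
      ContinuousOn (fun s => ∫ t in s..a, F t) (uIcc 0 a) := fun {F} hF => by
    refine (intervalIntegral.continuousOn_primitive_interval' hF right_mem_uIcc).neg.congr
      fun s _ => ?_
    simp [intervalIntegral.integral_symm a s]
  calc (∫ t in (0:ℝ)..a, M t) * (∫ t in (0:ℝ)..a, N t)
      = ∫ s in (0:ℝ)..a, (M s * (∫ t in s..a, N t) + M s * ∫ t in (0:ℝ)..s, N t) := by
        rw [← intervalIntegral.integral_mul_const]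
        refine intervalIntegral.integral_congr fun s hs => ?_
        rw [uIcc_of_le ha] at hs
        obtain ⟨u1, u2⟩ := hsub hs
        show M s * _ = _
        rw [← mul_add, add_comm (∫ t in s..a, N t),
          intervalIntegral.integral_add_adjacent_intervals (hN.mono_set u1) (hN.mono_set u2)]
    _ = _ := by
        rw [intervalIntegral.integral_add (hM.mul_continuousOn (hc2 hN)) (hM.mul_continuousOn hc1),
          hsw, intervalIntegral.integral_add (hM.mul_continuousOn (hc2 hN))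
            (hN.mul_continuousOn (hc2 hM))]

namespace Profile

variable (P : Profile)

/-- The product of the first moment and half the squared-height integral, by slices. -/
theorem product_bound :
    4 * ((∫ t in (0:ℝ)..P.a, P.M t) * ∫ t in (0:ℝ)..P.a, P.Φ t) ≤
      5 * (∫ t in (0:ℝ)..P.a, P.h t ^ 4 * tl P.h P.a t) -
        (∫ t in (0:ℝ)..P.a, t * P.h t ^ 2) * P.h 0 ^ 4 := by
  have ha := P.a_pos.le
  have hMi : IntervalIntegrable P.M volume 0 P.a :=
    AntitoneOn.intervalIntegrable (P.M_anti.mono (by rw [uIcc_of_le ha]; exact Icc_subset_Ici_self))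
  have hΦi : IntervalIntegrable P.Φ volume 0 P.a :=
    AntitoneOn.intervalIntegrable (P.Φ_anti.mono (by rw [uIcc_of_le ha]; exact Icc_subset_Ici_self))
  have hc2 : ∀ {F : ℝ → ℝ}, IntervalIntegrable F volume 0 P.a →
      ContinuousOn (fun s => ∫ t in s..P.a, F t) (uIcc 0 P.a) := fun {F} hF => by
    refine (intervalIntegral.continuousOn_primitive_interval' hF right_mem_uIcc).neg.congr
      fun s _ => ?_
    simp [intervalIntegral.integral_symm P.a s]
  rw [split_product ha hMi hΦi]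
  have hbound : (∫ s in (0:ℝ)..P.a,
      (P.M s * (∫ t in s..P.a, P.Φ t) + P.Φ s * ∫ t in s..P.a, P.M t)) ≤
      ∫ s in (0:ℝ)..P.a, (P.h s ^ 4 * tl P.h P.a s + P.h s ^ 3 * P.p s * P.R s) := by
    refine intervalIntegral.integral_mono_on_of_le_Ioo ha
      ((hMi.mul_continuousOn (hc2 hΦi)).add (hΦi.mul_continuousOn (hc2 hMi))) (P.hTi.add P.hpi)
      fun s hs => ?_
    have hss : uIcc s P.a ⊆ uIcc 0 P.a := by
      rw [uIcc_of_le ha, uIcc_of_le hs.2.le]
      exact Icc_subset_Icc hs.1.le le_rfl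
    have hI := integrable_sq P.anti_h (fun t _ => P.h_nonneg t) hs.1.le hs.2.le le_rfl
    have hI2 : IntervalIntegrable (fun t => (t - s) * P.h t ^ 2) volume s P.a :=
      hI.continuousOn_mul (Continuous.continuousOn (by fun_prop))
    calc P.M s * (∫ t in s..P.a, P.Φ t) + P.Φ s * ∫ t in s..P.a, P.M t
        = ∫ t in s..P.a, (P.M s * P.Φ t + P.Φ s * P.M t) := by
          rw [intervalIntegral.integral_add ((hΦi.mono_set hss).const_mul _)
            ((hMi.mono_set hss).const_mul _), intervalIntegral.integral_const_mul,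
            intervalIntegral.integral_const_mul]
      _ ≤ ∫ t in s..P.a, (P.h s ^ 4 * P.h t ^ 2 + P.h s ^ 3 * P.p s * ((t - s) * P.h t ^ 2)) := by
          refine intervalIntegral.integral_mono_on_of_le_Ioo hs.2.le
            (((hΦi.mono_set hss).const_mul _).add ((hMi.mono_set hss).const_mul _))
            ((hI.const_mul _).add (hI2.const_mul _)) fun t ht => ?_
          have := P.cross_le hs ht.1 ht.2.le
          rw [← P.h_sq s, ← P.h_sq t] at this
          linarith
      _ = _ := by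
          rw [intervalIntegral.integral_add (hI.const_mul _) (hI2.const_mul _),
            intervalIntegral.integral_const_mul, intervalIntegral.integral_const_mul, P.R_eq hs]
          rfl
  rw [intervalIntegral.integral_add P.hTi P.hpi] at hbound
  have := P.parts
  linarith

/-- The bound on the product of the three first moments in one profile. -/
theorem moments_bound :
    4 * (∫ t in (0:ℝ)..P.a, t * P.A t) * ((∫ t in (0:ℝ)..P.a, P.M t) *
        ∫ t in (0:ℝ)..P.a, P.Φ t) ≤ 225 / 224 * (∫ t in (0:ℝ)..P.a, P.A t) ^ 4 := by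
  have h1 := tailBound P.h P.a P.a_pos P.concave_h P.anti_h (fun t _ => P.h_nonneg t) P.pos_h
  have h2 := mul_le_mul_of_nonneg_left P.product_bound
    (show 0 ≤ ∫ t in (0:ℝ)..P.a, t * P.h t ^ 2 from
      intervalIntegral.integral_nonneg P.a_pos.le fun t ht => mul_nonneg ht.1 (sq_nonneg _))
  simp only [P.h_sq] at h1 h2
  linarith

end Profile

end Vale.Agent.P254.Three
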