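import Vale.Agent.P254.Orlicz.Moments
import Vale.Agent.P254.Three.OneD

/-!
Berwald's bound for the square of a concave decreasing function.
-/

open MeasureTheory Set

namespace Vale.Agent.P254.Three

open Vale.Agent.P254.Orlicz (ramp_zero ramp_one ramp_two integrable_of_bound)

theorem berwald : Berwald := by
  intro h A hA0 hconc hanti hnn hpos
  set f : ℝ → ℝ := (Icc 0 A).indicator (fun x => h x ^ 2) with hf
  have hA : ∀ x, A < x → f x = 0 := fun x hx => indicator_of_notMem (fun h' => absurd h'.2 (not_le.2 hx)) _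
  have hf_nn : ∀ x, 0 ≤ f x := fun x => indicator_nonneg (fun _ _ => sq_nonneg _) x
  have hiI : ∀ j : ℕ, IntegrableOn (fun x => x ^ j * h x ^ 2) (Icc 0 A) := fun j =>
    (((AntitoneOn.intervalIntegrable (u := fun x => h x ^ 2) (a := 0) (b := A) (by
      rw [uIcc_of_le hA0.le]
      exact fun s hs t ht hst => pow_le_pow_left₀ (hnn t ht) (hanti hs ht hst) 2)).continuousOn_mul
      (continuous_pow j).continuousOn) |> (intervalIntegrable_iff_integrableOn_Icc_of_le hA0.le).1)
  have hint : ∀ j : ℕ, IntegrableOn (fun x => x ^ j * f x) (Ioi 0) := fun j => by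
    have h1 := (hiI j).integrable_indicator measurableSet_Icc
    refine (h1.congr (Filter.Eventually.of_forall fun x => ?_)).integrableOn
    by_cases hx : x ∈ Icc 0 A
    · rw [hf, indicator_of_mem hx, indicator_of_mem hx]
    · rw [hf, indicator_of_notMem hx, indicator_of_notMem hx, mul_zero]
  have heq : ∀ j : ℕ, ∫ x in Ioi (0:ℝ), x ^ j * f x = ∫ x in (0:ℝ)..A, x ^ j * h x ^ 2 := fun j => by
    rw [intervalIntegral.integral_of_le hA0.le,
      setIntegral_eq_of_subset_of_forall_sdiff_eq_zero measurableSet_Ioi (s := Ioc 0 A)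
        Ioc_subset_Ioi_self]
    · refine setIntegral_congr_fun measurableSet_Ioc fun x hx => ?_
      rw [hf, indicator_of_mem (show x ∈ Icc 0 A from Ioc_subset_Icc_self hx)]
    · intro x hx
      rw [hA x (by
        by_contra hc
        exact hx.2 ⟨hx.1, not_lt.1 hc⟩), mul_zero]
  have hfi : IntegrableOn f (Ioi 0) := by simpa using hint 0
  have hfxi : IntegrableOn (fun x => x * f x) (Ioi 0) := by simpa using hint 1
  have hfx2i : IntegrableOn (fun x => x ^ 2 * f x) (Ioi 0) := hint 2
  have e0 := heq 0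
  have e1 := heq 1
  have e2 := heq 2
  simp only [pow_zero, one_mul, pow_one] at e0 e1
  rw [← e0, ← e1, ← e2]
  set V := ∫ x in Ioi (0:ℝ), f x with hV
  set M1 := ∫ x in Ioi (0:ℝ), x * f x with hM1
  have hV0 : 0 < V := by
    rw [e0]
    exact tl_pos hanti hnn hpos ⟨le_rfl, hA0⟩
  have hM0 : 0 < M1 := by
    rcases (setIntegral_nonneg measurableSet_Ioi fun x (hx : x ∈ Ioi (0:ℝ)) =>
      mul_nonneg (le_of_lt hx) (hf_nn x)).eq_or_lt with h' | h'
    · exfalso
      have hz := (setIntegral_eq_zero_iff_of_nonneg_ae ?_ hfxi).1 h'.symm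
      · refine hV0.ne' (integral_eq_zero_of_ae ?_)
        filter_upwards [hz, ae_restrict_mem measurableSet_Ioi] with x hx hxm
        simp only [Pi.zero_apply, mul_eq_zero] at hx ⊢
        exact hx.resolve_left (ne_of_gt hxm)
      · exact (ae_restrict_iff' measurableSet_Ioi).2 (Filter.Eventually.of_forall fun x hx =>
          mul_nonneg (le_of_lt hx) (hf_nn x))
    · exact h'
  obtain ⟨k, hk⟩ : ∃ k : ℕ, k = 2 := ⟨_, rfl⟩
  have hk0 : k ≠ 0 := by omega
  have eM : M1 = ∫ x in Ioi (0:ℝ), x * f x := hM1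
  have eV : V = ∫ x in Ioi (0:ℝ), f x := hV
  -- the comparison function
  set a : ℝ := ((k:ℝ) + 2) * M1 / V with ha
  have ha0 : 0 < a := by positivity
  set β : ℝ := (V * ((k:ℝ) + 1) / a) ^ ((k:ℕ):ℝ)⁻¹ with hβ
  have hβk : β ^ k = V * ((k:ℝ) + 1) / a :=
    Real.rpow_inv_natCast_pow (by positivity) hk0
  have hβ0 : 0 ≤ β := Real.rpow_nonneg (by positivity) _
  set l : ℝ → ℝ := fun x => β * max (1 - x / a) 0 with hl
  set f0 : ℝ → ℝ := fun x => l x ^ k with hf0
  have hf0' : ∀ x, f0 x = β ^ k * (max (1 - x / a) 0) ^ k := fun x => by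
    simp [hf0, hl, mul_pow]
  have i0 : ∫ x in Ioi (0:ℝ), f0 x = V := by
    simp only [hf0']
    rw [integral_const_mul, ramp_zero ha0 hk0, hβk]
    field_simp
  have i1 : ∫ x in Ioi (0:ℝ), x * f0 x = M1 := by
    simp only [hf0', mul_left_comm _ (β ^ k)]
    rw [integral_const_mul, ramp_one ha0 hk0, hβk, ha]
    field_simp
  have i2 : ∫ x in Ioi (0:ℝ), x ^ 2 * f0 x =
      2 * ((k:ℝ) + 2) / ((k:ℝ) + 3) * M1 ^ 2 / V := by
    simp only [hf0', mul_left_comm _ (β ^ k)]
    rw [integral_const_mul, ramp_two ha0 hk0, hβk, ha]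
    field_simp
  have hl_nn : ∀ x, 0 ≤ l x := fun x => mul_nonneg hβ0 (le_max_right _ _)
  have hlc : ConvexOn ℝ univ l := by
    have h1 : ConvexOn ℝ univ (fun x : ℝ => max (1 - x / a) 0) := by
      refine ConvexOn.sup ⟨convex_univ, fun x _ y _ s t _ _ hst => le_of_eq ?_⟩
        (convexOn_const 0 convex_univ)
      simp only [smul_eq_mul]
      field_simp
      linear_combination (-a) * hst
    simpa [hl, smul_eq_mul, Pi.smul_apply] using h1.smul hβ0
  have hcmp : ∀ x, f0 x < f x → x ∈ Icc 0 A ∧ l x < h x := by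
    intro x hx
    have hle : x ∈ Icc 0 A := by
      by_contra hc
      have : f x = 0 := indicator_of_notMem hc _
      have : 0 ≤ f0 x := pow_nonneg (hl_nn x) _
      linarith
    refine ⟨hle, ?_⟩
    rw [hf, indicator_of_mem hle] at hx
    rw [hf0, hk] at hx
    exact lt_of_pow_lt_pow_left₀ _ (hnn x hle) hx
  set D : Set ℝ := {x | 0 < x ∧ f0 x < f x} with hD
  have hconn : ∀ x y z, x ∈ D → z ∈ D → x < y → y < z → y ∈ D := by
    intro x y z hx hz hxy hyz
    obtain ⟨hx1, hx2⟩ := hcmp x hx.2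
    obtain ⟨hz1, hz2⟩ := hcmp z hz.2
    refine ⟨hx.1.trans hxy, ?_⟩
    have hy1 : y ∈ Icc 0 A := ⟨hx1.1.trans hxy.le, hyz.le.trans hz1.2⟩
    rw [hf, indicator_of_mem hy1]
    show l y ^ k < h y ^ 2
    rw [hk]
    refine pow_lt_pow_left₀ ?_ (hl_nn y) (by norm_num)
    set s := (z - y) / (z - x) with hs
    have hzx : 0 < z - x := by linarith
    have hs0 : 0 < s := div_pos (by linarith) hzx
    have hs1 : s < 1 := by rw [hs, div_lt_one hzx]; linarith
    have hy : s * x + (1 - s) * z = y := by rw [hs]; field_simp; ring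
    have h1 := hlc.2 (mem_univ x) (mem_univ z) hs0.le (sub_pos.2 hs1).le (by ring)
    have h3 := hconc.2 hx1 hz1 hs0.le (sub_pos.2 hs1).le (by ring)
    simp only [smul_eq_mul] at h1 h3
    rw [hy] at h1 h3
    nlinarith [mul_lt_mul_of_pos_left hx2 hs0, mul_lt_mul_of_pos_left hz2 (sub_pos.2 hs1)]
  have hf0i : IntegrableOn f0 (Ioi 0) := by
    refine integrable_of_bound (a := a) (C := β ^ k) (by fun_prop) (fun x hx => ?_) fun x hx => ?_
    · have : 1 - x / a ≤ 0 := by rw [sub_nonpos, le_div_iff₀ ha0]; linarith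
      simp [hf0', max_eq_right this, zero_pow hk0]
    · rw [abs_of_nonneg (pow_nonneg (hl_nn x) _)]
      simp only [hl, mul_pow]
      refine mul_le_of_le_one_right (pow_nonneg hβ0 _) (pow_le_one₀ (le_max_right _ _) ?_)
      exact max_le (by have := div_nonneg hx.1.le ha0.le; linarith) zero_le_one
  have hf0xi : ∀ j : ℕ, IntegrableOn (fun x => x ^ j * f0 x) (Ioi 0) := fun j => by
    refine integrable_of_bound (a := a) (C := a ^ j * β ^ k) (by fun_prop) (fun x hx => ?_)
      fun x hx => ?_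
    · have : 1 - x / a ≤ 0 := by rw [sub_nonpos, le_div_iff₀ ha0]; linarith
      simp [hf0', max_eq_right this, zero_pow hk0]
    · rw [abs_of_nonneg (mul_nonneg (pow_nonneg hx.1.le _) (pow_nonneg (hl_nn x) _))]
      refine mul_le_mul (pow_le_pow_left₀ hx.1.le hx.2 _) ?_ (pow_nonneg (hl_nn x) _)
        (pow_nonneg ha0.le _)
      simp only [hl, mul_pow]
      refine mul_le_of_le_one_right (pow_nonneg hβ0 _) (pow_le_one₀ (le_max_right _ _) ?_)
      exact max_le (by have := div_nonneg hx.1.le ha0.le; linarith) zero_le_one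
  -- the certificate
  obtain ⟨p, q, hpq⟩ : ∃ p q : ℝ, ∀ x, 0 < x → x ≠ p → x ≠ q →
      0 ≤ (x - p) * (q - x) * (f x - f0 x) := by
    rcases D.eq_empty_or_nonempty with he | hne
    · refine ⟨0, 0, fun x hx _ _ => ?_⟩
      have hle : f x ≤ f0 x := by
        by_contra hc
        exact (eq_empty_iff_forall_notMem.1 he x) ⟨hx, not_le.1 hc⟩
      nlinarith [mul_nonneg (sq_nonneg x) (sub_nonneg.2 hle)]
    · have hDb : BddAbove D := ⟨A, fun x hx => by
        by_contra hc
        have h2 := hx.2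
        rw [hA x (not_le.1 hc)] at h2
        exact absurd h2 (not_lt.2 (pow_nonneg (hl_nn x) _))⟩
      have hDl : BddBelow D := ⟨0, fun x hx => hx.1.le⟩
      refine ⟨sInf D, sSup D, fun x hx hxp hxq => ?_⟩
      by_cases hxD : x ∈ D
      · exact mul_nonneg (mul_nonneg (sub_nonneg.2 (csInf_le hDl hxD))
          (sub_nonneg.2 (le_csSup hDb hxD))) (sub_nonneg.2 hxD.2.le)
      · refine mul_nonneg_of_nonpos_of_nonpos ?_ (sub_nonpos.2 (not_lt.1 fun h => hxD ⟨hx, h⟩))
        rcases lt_or_ge x (sInf D) with h1 | h1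
        · exact mul_nonpos_of_nonpos_of_nonneg (by linarith)
            (sub_nonneg.2 (le_trans h1.le ((csInf_le hDl hne.some_mem).trans (le_csSup hDb hne.some_mem))))
        · rcases lt_or_ge (sSup D) x with h2 | h2
          · exact mul_nonpos_of_nonneg_of_nonpos (by linarith) (by linarith)
          · obtain ⟨u, hu, hux⟩ := exists_lt_of_csInf_lt hne (lt_of_le_of_ne h1 (Ne.symm hxp))
            obtain ⟨w, hw, hxw⟩ := exists_lt_of_lt_csSup hne (lt_of_le_of_ne h2 hxq)
            exact absurd (hconn u x w hu hw hux hxw) hxD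
  have hI : 0 ≤ ∫ x in Ioi (0:ℝ), (x - p) * (q - x) * (f x - f0 x) := by
    refine integral_nonneg_of_ae ?_
    filter_upwards [ae_restrict_mem measurableSet_Ioi,
      ae_restrict_of_ae ((Set.toFinite {p, q}).countable.ae_notMem volume)] with x hx hne
    simp only [mem_insert_iff, mem_singleton_iff, not_or] at hne
    exact hpq x hx hne.1 hne.2
  have hexp : ∀ x, (x - p) * (q - x) * (f x - f0 x) =
      (p + q) * (x * f x - x * f0 x) - p * q * (f x - f0 x) - (x ^ 2 * f x - x ^ 2 * f0 x) :=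
    fun x => by ring
  simp only [hexp] at hI
  have j1 : IntegrableOn (fun x => x * f0 x) (Ioi 0) := by simpa using hf0xi 1
  have k1 : Integrable (fun x => x * f x - x * f0 x) (volume.restrict (Ioi 0)) := hfxi.sub j1
  have k0 : Integrable (fun x => f x - f0 x) (volume.restrict (Ioi 0)) := hfi.sub hf0i
  have k2 : Integrable (fun x => x ^ 2 * f x - x ^ 2 * f0 x) (volume.restrict (Ioi 0)) :=
    hfx2i.sub (hf0xi 2)
  have k10 : Integrable (fun x => (p + q) * (x * f x - x * f0 x) - p * q * (f x - f0 x))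
      (volume.restrict (Ioi 0)) := (k1.const_mul _).sub (k0.const_mul _)
  rw [integral_sub k10 k2, integral_sub (k1.const_mul _) (k0.const_mul _), integral_const_mul,
    integral_const_mul, integral_sub hfxi j1, integral_sub hfi hf0i,
    integral_sub hfx2i (hf0xi 2), ← eM, ← eV, i0, i1, i2] at hI
  simp only [sub_self, mul_zero, zero_sub, neg_nonneg, sub_nonpos] at hI
  rw [le_div_iff₀ hV0] at hI
  refine hI.trans (le_of_eq ?_)
  rw [hk]
  norm_num

end Vale.Agent.P254.Three
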