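import Mathlib

/-!
Profiles of unconditional convex bodies in three dimensions.
-/

open MeasureTheory Set

namespace Vale.Agent.P254.Three

/-- The height function of a convex down-closed body in the octant, over its shadow `D`,
extended by zero. -/
structure Profile where
  /-- The shadow. -/
  D : Set (ℝ × ℝ)
  /-- The height function. -/
  G : ℝ → ℝ → ℝ
  /-- The extent along the first axis. -/
  a : ℝ
  a_pos : 0 < a
  compact : IsCompact D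
  convex : Convex ℝ D
  quad : ∀ p ∈ D, 0 ≤ p.1 ∧ 0 ≤ p.2
  down : ∀ p ∈ D, ∀ q : ℝ × ℝ, 0 ≤ q.1 → 0 ≤ q.2 → q.1 ≤ p.1 → q.2 ≤ p.2 → q ∈ D
  le_a : ∀ p ∈ D, p.1 ≤ a
  mem_a : (a, 0) ∈ D
  nonneg : ∀ t x, 0 ≤ G t x
  zero_out : ∀ t x, (t, x) ∉ D → G t x = 0
  concave : ConcaveOn ℝ D fun p => G p.1 p.2
  anti : ∀ t x t' x', 0 ≤ t → 0 ≤ x → t ≤ t' → x ≤ x' → G t' x' ≤ G t x
  meas : Measurable fun p : ℝ × ℝ => G p.1 p.2
  pos : ∀ t, 0 ≤ t → t < a → 0 < ∫ x in Ioi (0:ℝ), G t x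

namespace Profile

variable (P : Profile)

/-- The area of the slice at `t`. -/
noncomputable def A (t : ℝ) : ℝ := ∫ x in Ioi (0:ℝ), P.G t x

/-- The first moment of the slice at `t`. -/
noncomputable def M (t : ℝ) : ℝ := ∫ x in Ioi (0:ℝ), x * P.G t x

/-- The integral of the squared height over the slice at `t`. -/
noncomputable def Φ (t : ℝ) : ℝ := ∫ x in Ioi (0:ℝ), P.G t x ^ 2

/-- The square root of the slice area. -/
noncomputable def h (t : ℝ) : ℝ := Real.sqrt (P.A t)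

end Profile

/-- The tail of `h^2` on `[0, a]`. -/
noncomputable def tl (h : ℝ → ℝ) (a t : ℝ) : ℝ := ∫ s in t..a, h s ^ 2

/-- Statement of the one-variable inequality. -/
def TailBound : Prop :=
  ∀ (h : ℝ → ℝ) (a : ℝ), 0 < a → ConcaveOn ℝ (Icc 0 a) h → AntitoneOn h (Icc 0 a) →
    (∀ t ∈ Icc 0 a, 0 ≤ h t) → (∀ t ∈ Ico 0 a, 0 < h t) →
    (∫ t in (0:ℝ)..a, t * h t ^ 2) *
        (5 * (∫ t in (0:ℝ)..a, h t ^ 4 * tl h a t) - (∫ t in (0:ℝ)..a, t * h t ^ 2) * h 0 ^ 4) ≤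
      225 / 224 * (∫ t in (0:ℝ)..a, h t ^ 2) ^ 4

/-- Statement of the second moment bound. -/
def Berwald : Prop :=
  ∀ (h : ℝ → ℝ) (a : ℝ), 0 < a → ConcaveOn ℝ (Icc 0 a) h → AntitoneOn h (Icc 0 a) →
    (∀ t ∈ Icc 0 a, 0 ≤ h t) → (∀ t ∈ Ico 0 a, 0 < h t) →
    (∫ t in (0:ℝ)..a, t ^ 2 * h t ^ 2) * (∫ t in (0:ℝ)..a, h t ^ 2) ≤
      8 / 5 * (∫ t in (0:ℝ)..a, t * h t ^ 2) ^ 2

/-- Statement of concavity of the square root of slice areas. -/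
def RootConcave : Prop :=
  ∀ P : Profile, ConcaveOn ℝ (Icc 0 P.a) P.h ∧ AntitoneOn P.h (Icc 0 P.a)

/-- Statement of the two-slice inequality, in tangent form. -/
def PairBound : Prop :=
  ∀ P : Profile, ∀ s t θ : ℝ, 0 ≤ s → s < t → t ≤ P.a → 0 < θ → θ < 1 →
    θ ^ 2 * P.A s * (P.A s * P.A t) + (1 - θ) ^ 2 * P.A t * (P.A s * P.A t) +
        2 * θ * (1 - θ) * (P.M s * P.Φ t + P.M t * P.Φ s) ≤
      P.A (θ * s + (1 - θ) * t) * (P.A s * P.A t)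

end Vale.Agent.P254.Three
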