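import Vale.Agent.P254.Three.Octant
import Vale.Agent.P254.Orlicz.Symm

/-!
Unconditional convex bodies in three dimensions and their affine images.
-/

open MeasureTheory Set
open scoped ENNReal Matrix

namespace Vale.Agent.P254.Three

/-- Reordering of the coordinates by a swap. -/
lemma Octant.swap {B : Set (Fin 3 → ℝ)} (hB : Octant B) (i : Fin 3) :
    Octant ((fun y : Fin 3 → ℝ => fun j => y (Equiv.swap 0 i j)) ⁻¹' B) := by
  set σ : Fin 3 ≃ Fin 3 := Equiv.swap 0 i with hσ
  have hinv : ∀ y : Fin 3 → ℝ, (fun j => (fun j => y (σ j)) (σ j)) = y := fun y => by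
    funext j; simp [hσ]
  refine ⟨?_, ?_, ?_, ?_, ?_⟩
  · have e : (fun y : Fin 3 → ℝ => fun j => y (σ j)) ⁻¹' B =
        (fun y : Fin 3 → ℝ => fun j => y (σ j)) '' B := by
      ext y
      constructor
      · exact fun h => ⟨_, h, hinv y⟩
      · rintro ⟨z, hz, rfl⟩
        rw [mem_preimage, hinv]
        exact hz
    rw [e]
    exact hB.compact.image (by fun_prop)
  · exact fun x hx y hy a b ha hb hab => hB.convex hx hy ha hb hab
  · intro y hy j
    simpa [hσ] using hB.nonneg _ hy (σ j)
  · exact fun y hy z hz hzy => hB.down _ hy _ (fun j => hz _) fun j => hzy _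
  · obtain ⟨y, hy, hp⟩ := hB.inner
    refine ⟨fun j => y (σ j), ?_, fun j => hp _⟩
    rw [mem_preimage, hinv]
    exact hy

lemma integral_swap (B : Set (Fin 3 → ℝ)) (i : Fin 3) (F : (Fin 3 → ℝ) → ℝ) :
    ∫ y in (fun y : Fin 3 → ℝ => fun j => y (Equiv.swap 0 i j)) ⁻¹' B,
        F (fun j => y (Equiv.swap 0 i j)) = ∫ y in B, F y := by
  have hmp := volume_measurePreserving_piCongrLeft (fun _ : Fin 3 => ℝ) (Equiv.swap 0 i)
  have he : ⇑(MeasurableEquiv.piCongrLeft (fun _ : Fin 3 => ℝ) (Equiv.swap 0 i)) =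
      fun (y : Fin 3 → ℝ) j => y (Equiv.swap 0 i j) := by
    funext y j
    obtain ⟨k, rfl⟩ := (Equiv.swap 0 i).surjective j
    simp [MeasurableEquiv.piCongrLeft_apply_apply]
  have := hmp.setIntegral_preimage_emb (MeasurableEquiv.measurableEmbedding _) F B
  rwa [he] at this

namespace Octant

variable {B : Set (Fin 3 → ℝ)} (hB : Octant B)

include hB

lemma second_axis (i : Fin 3) :
    (∫ y in B, y i ^ 2) * volume.real B ≤ 8 / 5 * (∫ y in B, y i) ^ 2 := by
  have h := (hB.swap i).second_le
  have e2 := integral_swap B i fun y => y i ^ 2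
  have e1 := integral_swap B i fun y => y i
  have e0 := integral_swap B i fun _ => (1:ℝ)
  simp only [Equiv.swap_apply_right] at e1 e2
  simp only [setIntegral_const, smul_eq_mul, mul_one] at e0
  rwa [e2, e1, e0] at h

lemma first_nonneg (i : Fin 3) : 0 ≤ ∫ y in B, y i :=
  setIntegral_nonneg hB.compact.measurableSet fun y hy => hB.nonneg y hy i

/-- The product of the three second moments. -/
lemma moments_le :
    1000 * ((∫ y in B, y 0 ^ 2) * (∫ y in B, y 1 ^ 2) * ∫ y in B, y 2 ^ 2) ≤
      (225 / 224) ^ 2 * 64 * volume.real B ^ 5 := by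
  have hV := hB.vol_pos
  have hn : ∀ i, 0 ≤ ∫ y in B, y i ^ 2 := fun i => integral_nonneg fun y => sq_nonneg _
  have h01 := mul_le_mul (hB.second_axis 0) (hB.second_axis 1)
    (mul_nonneg (hn 1) hV.le) (by positivity)
  have h012 := mul_le_mul h01 (hB.second_axis 2) (mul_nonneg (hn 2) hV.le) (by positivity)
  have hp := hB.product_le
  have hp0 : 0 ≤ 8 * ((∫ y in B, y 0) * (∫ y in B, y 1) * ∫ y in B, y 2) := by
    have := hB.first_nonneg 0
    have := hB.first_nonneg 1
    have := hB.first_nonneg 2
    positivity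
  have hp2 := pow_le_pow_left₀ hp0 hp 2
  refine le_of_mul_le_mul_right ?_ (pow_pos hV 3)
  linear_combination 1000 * h012 + 64 * hp2

end Octant

variable {K : Set (Fin 3 → ℝ)}

/-- The part of a set in the closed octant. -/
def posPart (K : Set (Fin 3 → ℝ)) : Set (Fin 3 → ℝ) := K ∩ {y | ∀ i, 0 ≤ y i}

lemma scale_coord (hc : Convex ℝ K) (hu : ∀ x ∈ K, ∀ y : Fin 3 → ℝ, (∀ i, |y i| = |x i|) → y ∈ K)
    (i : Fin 3) {x : Fin 3 → ℝ} (hx : x ∈ K) {r : ℝ} (hr : |r| ≤ |x i|) :
    Function.update x i r ∈ K := by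
  rcases eq_or_ne (x i) 0 with h0 | h0
  · rw [h0, abs_zero, abs_nonpos_iff] at hr
    rw [hr, ← h0, Function.update_eq_self]
    exact hx
  · have hflip : Function.update x i (-x i) ∈ K := hu x hx _ fun j => by
      rcases eq_or_ne j i with h | h
      · subst h; simp
      · simp [h]
    have hb : |r / x i| ≤ 1 := by
      rw [abs_div]; exact (div_le_one (abs_pos.2 h0)).2 hr
    obtain ⟨hb1, hb2⟩ := abs_le.1 hb
    have := hc hx hflip (show 0 ≤ (1 + r / x i) / 2 by linarith)
      (show 0 ≤ (1 - r / x i) / 2 by linarith) (by ring)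
    convert this using 1
    funext j
    rcases eq_or_ne j i with h | h
    · subst h
      simp only [Function.update_self, Pi.add_apply, Pi.smul_apply, smul_eq_mul]
      field_simp
      ring
    · simp [h]
      ring

lemma solid (hc : Convex ℝ K) (hu : ∀ x ∈ K, ∀ y : Fin 3 → ℝ, (∀ i, |y i| = |x i|) → y ∈ K)
    {x y : Fin 3 → ℝ} (hx : x ∈ K) (h : ∀ i, |y i| ≤ |x i|) : y ∈ K := by
  have h1 := scale_coord hc hu 0 hx (h 0)
  have h2 := scale_coord hc hu 1 h1 (r := y 1) (by simpa using h 1)
  have h3 := scale_coord hc hu 2 h2 (r := y 2) (by simpa using h 2)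
  convert h3
  funext i
  fin_cases i <;> simp

lemma octant_posPart (hc : Convex ℝ K) (hk : IsCompact K) (hi : (interior K).Nonempty)
    (hu : ∀ x ∈ K, ∀ y : Fin 3 → ℝ, (∀ i, |y i| = |x i|) → y ∈ K) : Octant (posPart K) := by
  refine ⟨hk.inter_right ?_, hc.inter ?_, fun y hy => hy.2, fun y hy z hz hzy => ⟨?_, hz⟩, ?_⟩
  · simp only [ofPred_forall]
    exact isClosed_iInter fun i => isClosed_le continuous_const (continuous_apply i)
  · intro x hx y hy a b ha hb _ i
    simp only [Pi.add_apply, Pi.smul_apply, smul_eq_mul]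
    have := hx i
    have := hy i
    positivity
  · refine solid hc hu hy.1 fun i => ?_
    rw [abs_of_nonneg (hz i), abs_of_nonneg (hy.2 i)]
    exact hzy i
  · obtain ⟨x, hx⟩ := hi
    have hxn : -x ∈ K := hu x (interior_subset hx) _ fun i => by simp
    have h0 : (0 : Fin 3 → ℝ) ∈ interior K := by
      refine hc.openSegment_interior_closure_subset_interior hx (subset_closure hxn) ?_
      exact ⟨1 / 2, 1 / 2, by norm_num, by norm_num, by norm_num, by simp⟩
    obtain ⟨r, hr, hball⟩ := Metric.isOpen_iff.1 isOpen_interior 0 h0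
    refine ⟨fun _ => r / 2, ⟨interior_subset (hball ?_), fun i => (half_pos hr).le⟩,
      fun i => half_pos hr⟩
    rw [mem_ball_zero_iff, pi_norm_lt_iff hr]
    intro i
    rw [Real.norm_eq_abs, abs_of_pos (half_pos hr)]
    linarith

lemma integral_abs (hk : IsCompact K)
    (hu : ∀ x ∈ K, ∀ y : Fin 3 → ℝ, (∀ i, |y i| = |x i|) → y ∈ K)
    {F : (Fin 3 → ℝ) → ℝ} (hF : Continuous F) :
    ∫ y in K, F (fun j => |y j|) = 8 * ∫ z in posPart K, F z := by
  have hm : Measurable fun (y : Fin 3 → ℝ) j => |y j| :=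
    measurable_pi_lambda _ fun j => continuous_abs.measurable.comp (measurable_pi_apply j)
  have hb : MeasurableSet (posPart K) := by
    refine (hk.inter_right ?_).measurableSet
    simp only [ofPred_forall]
    exact isClosed_iInter fun i => isClosed_le continuous_const (continuous_apply i)
  have hpre : (fun (y : Fin 3 → ℝ) j => |y j|) ⁻¹' posPart K = K := by
    ext y
    refine ⟨fun h => hu _ h.1 y fun i => (abs_abs (y i)).symm, fun h => ⟨hu y h _ fun i => abs_abs _,
      fun i => abs_nonneg _⟩⟩
  have h := setIntegral_map (μ := (volume : Measure (Fin 3 → ℝ))) hb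
    hF.aestronglyMeasurable hm.aemeasurable (f := F)
  rw [hpre, Orlicz.map_abs_pi, Measure.restrict_smul, integral_smul_measure,
    Measure.restrict_restrict hb] at h
  rw [← h]
  have hsub : posPart K ⊆ univ.pi fun _ : Fin 3 => Ici (0:ℝ) := fun y hy i _ => hy.2 i
  rw [inter_eq_left.2 hsub]
  simp
  norm_num

lemma integral_flip (hu : ∀ x ∈ K, ∀ y : Fin 3 → ℝ, (∀ i, |y i| = |x i|) → y ∈ K)
    (i : Fin 3) (F : (Fin 3 → ℝ) → ℝ) :
    ∫ y in K, F y = ∫ y in K, F (fun j => if j = i then -y j else y j) := by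
  let e : (Fin 3 → ℝ) ≃ᵐ (Fin 3 → ℝ) := MeasurableEquiv.piCongrRight fun j =>
    if j = i then MeasurableEquiv.neg ℝ else MeasurableEquiv.refl ℝ
  have he : ∀ y j, e y j = if j = i then -y j else y j := by
    intro y j
    show (if j = i then MeasurableEquiv.neg ℝ else MeasurableEquiv.refl ℝ) (y j) = _
    split_ifs <;> rfl
  have hmp : MeasurePreserving e volume volume := by
    refine volume_preserving_pi (fun j => ?_)
    by_cases hj : j = i
    · simp only [hj, if_true]
      exact Measure.measurePreserving_neg volume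
    · simp only [if_neg hj]
      exact MeasurePreserving.id volume
  have hpre : e ⁻¹' K = K := by
    ext y
    have : ∀ j, |e y j| = |y j| := fun j => by rw [he]; split_ifs <;> simp
    exact ⟨fun h => hu _ h y fun j => (this j).symm, fun h => hu y h _ this⟩
  have h := hmp.setIntegral_preimage_emb e.measurableEmbedding F K
  rw [hpre] at h
  rw [← h]
  exact integral_congr_ae (Filter.Eventually.of_forall fun y => congrArg F (funext (he y)))

/-- The covariance matrix and the volume of an unconditional body. -/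
theorem cov_unconditional (hc : Convex ℝ K) (hk : IsCompact K) (hi : (interior K).Nonempty)
    (hu : ∀ x ∈ K, ∀ y : Fin 3 → ℝ, (∀ i, |y i| = |x i|) → y ∈ K) :
    volume.real K = 8 * volume.real (posPart K) ∧
      cov K = Matrix.diagonal fun i => (∫ y in posPart K, y i ^ 2) / volume.real (posPart K) := by
  have hvol : volume.real K = 8 * volume.real (posPart K) := by
    have h := integral_abs hk hu (F := fun _ => (1:ℝ)) continuous_const
    simpa using h
  have hodd : ∀ i, ∫ y in K, y i = 0 := fun i => by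
    have h := integral_flip hu i (fun y => y i)
    simp only [if_pos, integral_neg] at h
    linarith
  have hb : ∀ i, bary K i = 0 := fun i => by simp [bary, hodd]
  refine ⟨hvol, ?_⟩
  ext i j
  simp only [cov, Matrix.of_apply, hb, sub_zero]
  rcases eq_or_ne i j with h | h
  · subst h
    have h2 := integral_abs hk hu (F := fun z => z i ^ 2) ((continuous_apply i).pow 2)
    simp only [sq_abs] at h2
    rw [Matrix.diagonal_apply_eq, show (fun y : Fin 3 → ℝ => y i * y i) = fun y => y i ^ 2 from
      funext fun y => (sq (y i)).symm, h2, hvol]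
    have := (octant_posPart hc hk hi hu).vol_pos
    field_simp
  · have h2 := integral_flip hu i (fun y => y i * y j)
    simp only [if_pos, if_neg h.symm, neg_mul, integral_neg] at h2
    rw [Matrix.diagonal_apply_ne _ h, show ∫ y in K, y i * y j = 0 by linarith, mul_zero]

/-- Every unconditional convex body in three dimensions is below the simplex. -/
theorem isoConst_lt (hc : Convex ℝ K) (hk : IsCompact K) (hi : (interior K).Nonempty)
    (hu : ∀ x ∈ K, ∀ y : Fin 3 → ℝ, (∀ i, |y i| = |x i|) → y ∈ K) :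
    isoConst K < isoConst (cornerSimplex 3) := by
  obtain ⟨hvol, hcov⟩ := cov_unconditional hc hk hi hu
  have hB := octant_posPart hc hk hi hu
  have hV := hB.vol_pos
  have hs : isoConst (cornerSimplex 3) = (9 / 8000 : ℝ) ^ (1 / (2 * (3:ℕ)) : ℝ) := by
    rw [show (3:ℕ) = 1 + 2 from rfl, Orlicz.isoConst_simplex 1]
    norm_num [Nat.factorial]
  rw [hs, isoConst, hcov, Matrix.det_diagonal, hvol, Fin.prod_univ_three]
  have hn : ∀ i, 0 ≤ ∫ y in posPart K, y i ^ 2 := fun i => integral_nonneg fun y => sq_nonneg _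
  have h := hB.moments_le
  refine Real.rpow_lt_rpow ?_ ?_ (by norm_num)
  · have := hn 0
    have := hn 1
    have := hn 2
    positivity
  · set V := volume.real (posPart K) with hVdef
    set P := (∫ y in posPart K, y 0 ^ 2) * (∫ y in posPart K, y 1 ^ 2) *
      ∫ y in posPart K, y 2 ^ 2 with hP
    have e : (∫ y in posPart K, y 0 ^ 2) / V * ((∫ y in posPart K, y 1 ^ 2) / V) *
        ((∫ y in posPart K, y 2 ^ 2) / V) / (8 * V) ^ 2 = P / (64 * V ^ 5) := by
      rw [hP]; field_simp; ring
    rw [e, div_lt_iff₀ (by positivity)]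
    nlinarith [pow_pos hV 5]

end Vale.Agent.P254.Three
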