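import Vale.Agent.P254.Three.Assembly
import Vale.Agent.P254.Three.Berwald

/-!
Convex down-closed bodies in the octant and their profiles.
-/

open MeasureTheory Set Filter

namespace Vale.Agent.P254.Three

/-- A compact convex down-closed body in the closed octant. -/
structure Octant (B : Set (Fin 3 → ℝ)) : Prop where
  compact : IsCompact B
  convex : Convex ℝ B
  nonneg : ∀ y ∈ B, ∀ i, 0 ≤ y i
  down : ∀ y ∈ B, ∀ z : Fin 3 → ℝ, (∀ i, 0 ≤ z i) → (∀ i, z i ≤ y i) → z ∈ B
  inner : ∃ y ∈ B, ∀ i, 0 < y i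

namespace Octant

variable {B : Set (Fin 3 → ℝ)} (hB : Octant B)

include hB

lemma exists_bound : ∃ R : ℝ, ∀ y ∈ B, ∀ i, y i ≤ R := by
  obtain ⟨R, hR⟩ := hB.compact.isBounded.subset_closedBall (0 : Fin 3 → ℝ)
  refine ⟨R, fun y hy i => ?_⟩
  have h1 : ‖y i‖ ≤ ‖y‖ := norm_le_pi_norm y i
  have h2 : ‖y‖ ≤ R := by simpa using hR hy
  exact le_trans (le_abs_self _) (h1.trans h2)

omit hB in
/-- The height over a point of the first two coordinates. -/
noncomputable def height (B : Set (Fin 3 → ℝ)) (t x : ℝ) : ℝ := sSup {z | ![t, x, z] ∈ B}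

lemma coord_nonneg {t x z : ℝ} (h : ![t, x, z] ∈ B) : 0 ≤ t ∧ 0 ≤ x ∧ 0 ≤ z :=
  ⟨hB.nonneg _ h 0, hB.nonneg _ h 1, hB.nonneg _ h 2⟩

lemma below {t x z t' x' z' : ℝ} (h : ![t, x, z] ∈ B) (h1 : 0 ≤ t') (h2 : 0 ≤ x') (h3 : 0 ≤ z')
    (h4 : t' ≤ t) (h5 : x' ≤ x) (h6 : z' ≤ z) : ![t', x', z'] ∈ B :=
  hB.down _ h _ (by simp [Fin.forall_fin_succ, h1, h2, h3])
    (by simp [Fin.forall_fin_succ, h4, h5, h6])

lemma height_bdd (t x : ℝ) : BddAbove {z | ![t, x, z] ∈ B} := by
  obtain ⟨R, hR⟩ := hB.exists_bound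
  exact ⟨R, fun z hz => hR _ hz 2⟩

lemma height_nonneg (t x : ℝ) : 0 ≤ height B t x :=
  Real.sSup_nonneg fun _ hz => (hB.coord_nonneg hz).2.2

lemma height_mem {t x : ℝ} (h : ![t, x, 0] ∈ B) : ![t, x, height B t x] ∈ B := by
  have hcl : IsClosed {z : ℝ | ![t, x, z] ∈ B} :=
    hB.compact.isClosed.preimage (by fun_prop)
  exact hcl.csSup_mem ⟨0, h⟩ (hB.height_bdd t x)

lemma le_height {t x z : ℝ} (h : ![t, x, z] ∈ B) : z ≤ height B t x :=
  le_csSup (hB.height_bdd t x) h

lemma height_out {t x : ℝ} (h : ![t, x, 0] ∉ B) : height B t x = 0 := by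
  have : {z : ℝ | ![t, x, z] ∈ B} = ∅ := eq_empty_iff_forall_notMem.2 fun z hz =>
    h (hB.below hz (hB.coord_nonneg hz).1 (hB.coord_nonneg hz).2.1 le_rfl le_rfl le_rfl
      (hB.coord_nonneg hz).2.2)
  simp [height, this]

lemma mem_iff {t x z : ℝ} (hz : 0 < z) : ![t, x, z] ∈ B ↔ z ≤ height B t x := by
  refine ⟨hB.le_height, fun h => ?_⟩
  have h0 : ![t, x, 0] ∈ B := by
    by_contra hc
    rw [hB.height_out hc] at h
    linarith
  obtain ⟨h1, h2, -⟩ := hB.coord_nonneg h0
  exact hB.below (hB.height_mem h0) h1 h2 hz.le le_rfl le_rfl h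

lemma height_anti {t x t' x' : ℝ} (ht : 0 ≤ t) (hx : 0 ≤ x) (h1 : t ≤ t') (h2 : x ≤ x') :
    height B t' x' ≤ height B t x := by
  by_cases h : ![t', x', 0] ∈ B
  · exact hB.le_height (hB.below (hB.height_mem h) ht hx (hB.height_nonneg _ _) h1 h2 le_rfl)
  · rw [hB.height_out h]
    exact hB.height_nonneg _ _

lemma measurable_height : Measurable fun p : ℝ × ℝ => height B p.1 p.2 := by
  refine measurable_of_Ici fun y => ?_
  rcases le_or_gt y 0 with hy | hy
  · have : (fun p : ℝ × ℝ => height B p.1 p.2) ⁻¹' Ici y = univ :=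
      eq_univ_of_forall fun p => hy.trans (hB.height_nonneg _ _)
    rw [this]
    exact MeasurableSet.univ
  · have : (fun p : ℝ × ℝ => height B p.1 p.2) ⁻¹' Ici y =
        (fun p : ℝ × ℝ => ![p.1, p.2, y]) ⁻¹' B := by
      ext p
      exact (hB.mem_iff hy).symm
    rw [this]
    exact (hB.compact.isClosed.preimage (by fun_prop)).measurableSet

omit hB in
/-- The extent along the first axis. -/
noncomputable def extent (B : Set (Fin 3 → ℝ)) : ℝ := sSup {t | ![t, 0, 0] ∈ B}

lemma extent_bdd : BddAbove {t | ![t, (0:ℝ), 0] ∈ B} := by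
  obtain ⟨R, hR⟩ := hB.exists_bound
  exact ⟨R, fun z hz => hR _ hz 0⟩

lemma exists_axis : ∃ t, 0 < t ∧ ![t, (0:ℝ), 0] ∈ B := by
  obtain ⟨y, hy, hp⟩ := hB.inner
  refine ⟨y 0, hp 0, hB.down y hy _ ?_ ?_⟩
  · simp [Fin.forall_fin_succ, (hp 0).le]
  · simp [Fin.forall_fin_succ, (hp 1).le, (hp 2).le]

lemma extent_mem : ![extent B, (0:ℝ), 0] ∈ B := by
  obtain ⟨t, -, ht⟩ := hB.exists_axis
  exact (hB.compact.isClosed.preimage (by fun_prop :
    Continuous fun t : ℝ => ![t, (0:ℝ), 0])).csSup_mem ⟨t, ht⟩ hB.extent_bdd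

lemma extent_pos : 0 < extent B := by
  obtain ⟨t, ht0, ht⟩ := hB.exists_axis
  exact ht0.trans_le (le_csSup hB.extent_bdd ht)

lemma le_extent {t x z : ℝ} (h : ![t, x, z] ∈ B) : t ≤ extent B := by
  obtain ⟨h1, h2, h3⟩ := hB.coord_nonneg h
  exact le_csSup hB.extent_bdd (hB.below h h1 le_rfl le_rfl le_rfl h2 h3)

omit hB in
lemma vec_combo (a b t x z t' x' z' : ℝ) :
    a • ![t, x, z] + b • ![t', x', z'] = ![a * t + b * t', a * x + b * x', a * z + b * z'] := by
  ext i; fin_cases i <;> simp

lemma positive_area {t : ℝ} (ht : 0 ≤ t) (hta : t < extent B) :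
    0 < ∫ x in Ioi (0:ℝ), height B t x := by
  obtain ⟨y, hy, hp⟩ := hB.inner
  obtain ⟨lam, hl0, hl1, hlt⟩ : ∃ lam : ℝ, 0 < lam ∧ lam < 1 ∧
      t ≤ (1 - lam) * extent B + lam * y 0 := by
    refine ⟨(extent B - t) / (2 * extent B), div_pos (sub_pos.2 hta) (by linarith [hB.extent_pos]),
      ?_, ?_⟩
    · rw [div_lt_one (by linarith [hB.extent_pos])]
      linarith [hB.extent_pos]
    · have he := hB.extent_pos
      have e : (1 - (extent B - t) / (2 * extent B)) * extent B = (extent B + t) / 2 := by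
        field_simp; ring
      rw [e]
      have : 0 ≤ (extent B - t) / (2 * extent B) * y 0 :=
        mul_nonneg (div_nonneg (by linarith) (by linarith)) (hp 0).le
      linarith
  have hy' : ![y 0, y 1, y 2] ∈ B := by
    have : ![y 0, y 1, y 2] = y := by ext i; fin_cases i <;> simp
    rwa [this]
  have hc := hB.convex hB.extent_mem hy' (sub_pos.2 hl1).le hl0.le (by ring)
  rw [vec_combo] at hc
  simp only [mul_zero, zero_add] at hc
  set x' := lam * y 1 with hx'
  set z' := lam * y 2 with hz'
  have hx0 : 0 < x' := mul_pos hl0 (hp 1)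
  have hz0 : 0 < z' := mul_pos hl0 (hp 2)
  obtain ⟨R, hR⟩ := hB.exists_bound
  have hint : IntegrableOn (height B t) (Ioi 0) := by
    refine Orlicz.integrable_of_bound (a := R) (C := height B t 0)
      (hB.measurable_height.comp (measurable_const.prodMk measurable_id)) (fun x hx => ?_)
      fun x hx => ?_
    · exact hB.height_out fun h => absurd (hR _ h 1) (not_le.2 hx)
    · rw [abs_of_nonneg (hB.height_nonneg _ _)]
      exact hB.height_anti ht le_rfl le_rfl hx.1.le
  calc 0 < x' * z' := mul_pos hx0 hz0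
    _ = ∫ _x in Ioc 0 x', z' := by
        rw [setIntegral_const, smul_eq_mul, Measure.real, Real.volume_Ioc, sub_zero,
          ENNReal.toReal_ofReal hx0.le]
    _ ≤ ∫ x in Ioc 0 x', height B t x :=
        setIntegral_mono_on (integrableOn_const (by simp)) (hint.mono_set Ioc_subset_Ioi_self)
          measurableSet_Ioc fun x hx => hB.le_height (hB.below hc ht hx.1.le hz0.le hlt hx.2 le_rfl)
    _ ≤ _ := setIntegral_mono_set hint (Eventually.of_forall fun x => hB.height_nonneg t x)
        (Eventually.of_forall fun x hx => hx.1)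

/-- The profile of an octant body along the first axis. -/
noncomputable def profile : Profile where
  D := {p | ![p.1, p.2, 0] ∈ B}
  G := height B
  a := extent B
  a_pos := hB.extent_pos
  compact := by
    obtain ⟨R, hR⟩ := hB.exists_bound
    refine (isCompact_Icc (a := ((0:ℝ), (0:ℝ))) (b := (R, R))).of_isClosed_subset
      (hB.compact.isClosed.preimage (by fun_prop)) fun p hp => ?_
    exact ⟨⟨(hB.coord_nonneg hp).1, (hB.coord_nonneg hp).2.1⟩, hR _ hp 0, hR _ hp 1⟩
  convex := fun p hp q hq a b ha hb hab => by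
    have := hB.convex hp hq ha hb hab
    rw [vec_combo] at this
    simpa using this
  quad := fun p hp => ⟨(hB.coord_nonneg hp).1, (hB.coord_nonneg hp).2.1⟩
  down := fun p hp q h1 h2 h3 h4 => hB.below hp h1 h2 le_rfl h3 h4 le_rfl
  le_a := fun p hp => hB.le_extent hp
  mem_a := hB.extent_mem
  nonneg := hB.height_nonneg
  zero_out := fun _ _ h => hB.height_out h
  concave := by
    refine ⟨fun p hp q hq a b ha hb hab => by
      have := hB.convex hp hq ha hb hab
      rw [vec_combo] at this
      simpa using this, fun p hp q hq a b ha hb hab => ?_⟩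
    have := hB.convex (hB.height_mem hp) (hB.height_mem hq) ha hb hab
    rw [vec_combo] at this
    simpa using hB.le_height this
  anti := fun t x t' x' h1 h2 h3 h4 => hB.height_anti h1 h2 h3 h4
  meas := hB.measurable_height
  pos := fun t h1 h2 => hB.positive_area h1 h2

lemma slice_zero {t : ℝ} (ht : t ∉ Icc 0 (extent B)) (x : ℝ) : ![t, x, 0] ∉ B := fun h =>
  ht ⟨(hB.coord_nonneg h).1, hB.le_extent h⟩

omit hB in
/-- The coordinates as a nested pair. -/
noncomputable def coords : ℝ × (ℝ × ℝ) ≃ᵐ (Fin 3 → ℝ) :=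
  ((MeasurableEquiv.refl ℝ).prodCongr MeasurableEquiv.finTwoArrow.symm).trans
    (MeasurableEquiv.piFinSuccAbove (fun _ : Fin 3 => ℝ) 0).symm

omit hB in
lemma coords_apply (p : ℝ × (ℝ × ℝ)) : coords p = ![p.1, p.2.1, p.2.2] := by
  ext i
  fin_cases i <;> rfl

omit hB in
lemma coords_preserving : MeasurePreserving coords (volume : Measure (ℝ × (ℝ × ℝ))) volume := by
  refine MeasurePreserving.trans ?_ ((volume_preserving_piFinSuccAbove (fun _ : Fin 3 => ℝ) 0).symm _)
  exact (MeasurePreserving.id volume).prod ((volume_preserving_finTwoArrow ℝ).symm _)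

/-- Integration over the body by successive slices. -/
lemma integral_body {F : (Fin 3 → ℝ) → ℝ} (hF : Continuous F) :
    ∫ y in B, F y = ∫ t in (0:ℝ)..extent B,
      ∫ x in Ioi (0:ℝ), ∫ z in (0:ℝ)..height B t x, F ![t, x, z] := by
  have hm : MeasurableSet B := hB.compact.measurableSet
  set G : (Fin 3 → ℝ) → ℝ := B.indicator F with hG
  have hGi : Integrable G := (hF.continuousOn.integrableOn_compact hB.compact).integrable_indicator hm
  have hprod : Integrable (fun p => G (coords p)) (volume : Measure (ℝ × (ℝ × ℝ))) :=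
    (coords_preserving.integrable_comp_emb coords.measurableEmbedding (g := G)).2 hGi
  rw [← integral_indicator hm, ← hG, ← coords_preserving.integral_comp coords.measurableEmbedding G]
  simp only [coords_apply]
  rw [Measure.volume_eq_prod, integral_prod _ (by simpa only [coords_apply, Measure.volume_eq_prod] using hprod),
    intervalIntegral.integral_of_le hB.extent_pos.le, ← integral_Icc_eq_integral_Ioc,
    ← integral_indicator measurableSet_Icc]
  refine integral_congr_ae (Eventually.of_forall fun t => ?_)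
  by_cases ht : t ∈ Icc 0 (extent B)
  · rw [indicator_of_mem ht]
    set S : Set (ℝ × ℝ) := {p | ![t, p.1, p.2] ∈ B} with hS
    have hSc : IsCompact S := by
      obtain ⟨R, hR⟩ := hB.exists_bound
      refine (isCompact_Icc (a := ((0:ℝ), (0:ℝ))) (b := (R, R))).of_isClosed_subset
        (hB.compact.isClosed.preimage (by fun_prop)) fun p hp => ?_
      exact ⟨⟨(hB.coord_nonneg hp).2.1, (hB.coord_nonneg hp).2.2⟩, hR _ hp 1, hR _ hp 2⟩
    have hFc : Continuous fun p : ℝ × ℝ => F ![t, p.1, p.2] := hF.comp (by fun_prop)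
    have e : (fun p : ℝ × ℝ => G ![t, p.1, p.2]) = S.indicator fun p => F ![t, p.1, p.2] := by
      funext p
      by_cases hp : ![t, p.1, p.2] ∈ B
      · rw [hG, indicator_of_mem hp, indicator_of_mem (show p ∈ S from hp)]
      · rw [hG, indicator_of_notMem hp, indicator_of_notMem (show p ∉ S from hp)]
    have hi2 : Integrable (fun p : ℝ × ℝ => G ![t, p.1, p.2]) (volume.prod volume) := by
      rw [e, ← Measure.volume_eq_prod]
      exact (hFc.continuousOn.integrableOn_compact hSc).integrable_indicator hSc.measurableSet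
    simp only [Measure.volume_eq_prod]
    rw [integral_prod _ hi2, ← integral_Ici_eq_integral_Ioi, ← integral_indicator measurableSet_Ici]
    refine integral_congr_ae (Eventually.of_forall fun x => ?_)
    by_cases hx : 0 ≤ x
    · rw [indicator_of_mem (show x ∈ Ici (0:ℝ) from hx),
        intervalIntegral.integral_of_le (hB.height_nonneg _ _), ← integral_indicator measurableSet_Ioc]
      refine integral_congr_ae ?_
      filter_upwards [(Set.countable_singleton (0:ℝ)).ae_notMem volume] with z hz
      simp only [mem_singleton_iff] at hz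
      simp only [hG]
      by_cases hc : ![t, x, z] ∈ B
      · have h0 : 0 < z := lt_of_le_of_ne (hB.coord_nonneg hc).2.2 (Ne.symm hz)
        rw [indicator_of_mem hc,
          indicator_of_mem (show z ∈ Ioc 0 (height B t x) from ⟨h0, hB.le_height hc⟩)]
      · rw [indicator_of_notMem hc,
          indicator_of_notMem (fun hc' => hc ((hB.mem_iff hc'.1).2 hc'.2))]
    · rw [indicator_of_notMem (show x ∉ Ici (0:ℝ) from hx)]
      refine integral_eq_zero_of_ae (Eventually.of_forall fun z => ?_)
      exact indicator_of_notMem (fun hc => hx (hB.coord_nonneg hc).2.1) _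
  · rw [indicator_of_notMem ht]
    refine integral_eq_zero_of_ae (Eventually.of_forall fun p => ?_)
    exact indicator_of_notMem
      (fun hc => ht ⟨(hB.coord_nonneg hc).1, hB.le_extent hc⟩) _

lemma vol_eq : volume.real B = ∫ t in (0:ℝ)..extent B, hB.profile.A t := by
  have h := hB.integral_body (F := fun _ => (1:ℝ)) continuous_const
  simp only [setIntegral_const, smul_eq_mul, mul_one, intervalIntegral.integral_const, sub_zero] at h
  exact h

lemma first_eq : ∫ y in B, y 0 = ∫ t in (0:ℝ)..extent B, t * hB.profile.A t := by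
  have h := hB.integral_body (F := fun y => y 0) (continuous_apply 0)
  simp only [Matrix.cons_val_zero, intervalIntegral.integral_const, sub_zero, smul_eq_mul,
    integral_mul_const] at h
  rw [h]
  refine intervalIntegral.integral_congr fun t _ => ?_
  exact mul_comm _ _

lemma second_eq : ∫ y in B, y 0 ^ 2 = ∫ t in (0:ℝ)..extent B, t ^ 2 * hB.profile.A t := by
  have h := hB.integral_body (F := fun y => y 0 ^ 2) ((continuous_apply 0).pow 2)
  simp only [Matrix.cons_val_zero, intervalIntegral.integral_const, sub_zero, smul_eq_mul,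
    integral_mul_const] at h
  rw [h]
  refine intervalIntegral.integral_congr fun t _ => ?_
  exact mul_comm _ _

lemma middle_eq : ∫ y in B, y 1 = ∫ t in (0:ℝ)..extent B, hB.profile.M t := by
  have h := hB.integral_body (F := fun y => y 1) (continuous_apply 1)
  simp only [Matrix.cons_val_one, Matrix.cons_val_zero, intervalIntegral.integral_const, sub_zero,
    smul_eq_mul] at h
  rw [h]
  refine intervalIntegral.integral_congr fun t _ => ?_
  exact setIntegral_congr_fun measurableSet_Ioi fun x _ => mul_comm _ _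

lemma last_eq : 2 * (∫ y in B, y 2) = ∫ t in (0:ℝ)..extent B, hB.profile.Φ t := by
  have h := hB.integral_body (F := fun y => y 2) (continuous_apply 2)
  simp only [Matrix.cons_val, integral_id, zero_pow two_ne_zero, sub_zero, integral_div,
    intervalIntegral.integral_div] at h
  rw [h]
  have : ∀ t, hB.profile.Φ t = ∫ x in Ioi (0:ℝ), height B t x ^ 2 := fun t => rfl
  simp only [this]
  ring

/-- The product of the three first moments. -/
theorem product_le :
    8 * ((∫ y in B, y 0) * (∫ y in B, y 1) * ∫ y in B, y 2) ≤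
      225 / 224 * volume.real B ^ 4 := by
  have h : 4 * (∫ t in (0:ℝ)..extent B, t * hB.profile.A t) *
      ((∫ t in (0:ℝ)..extent B, hB.profile.M t) * ∫ t in (0:ℝ)..extent B, hB.profile.Φ t) ≤
        225 / 224 * (∫ t in (0:ℝ)..extent B, hB.profile.A t) ^ 4 := hB.profile.moments_bound
  rw [← hB.first_eq, ← hB.middle_eq, ← hB.last_eq, ← hB.vol_eq] at h
  linarith

/-- The second moment along the first axis. -/
theorem second_le :
    (∫ y in B, y 0 ^ 2) * volume.real B ≤ 8 / 5 * (∫ y in B, y 0) ^ 2 := by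
  have h := berwald hB.profile.h hB.profile.a hB.profile.a_pos hB.profile.concave_h hB.profile.anti_h
    (fun t _ => hB.profile.h_nonneg t) hB.profile.pos_h
  simp only [hB.profile.h_sq] at h
  have h' : (∫ t in (0:ℝ)..extent B, t ^ 2 * hB.profile.A t) *
      (∫ t in (0:ℝ)..extent B, hB.profile.A t) ≤
        8 / 5 * (∫ t in (0:ℝ)..extent B, t * hB.profile.A t) ^ 2 := h
  rwa [← hB.first_eq, ← hB.second_eq, ← hB.vol_eq] at h'

lemma vol_pos : 0 < volume.real B := by
  rw [hB.vol_eq]
  have := tl_pos hB.profile.anti_h (fun t _ => hB.profile.h_nonneg t) hB.profile.pos_h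
    (t := 0) ⟨le_rfl, hB.profile.a_pos⟩
  simp only [tl, hB.profile.h_sq] at this
  exact this

end Octant

end Vale.Agent.P254.Three
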