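import Vale.Agent.P254.Three.Slice

/-!
The two-slice inequality.
-/

open MeasureTheory Set

namespace Vale.Agent.P254.Three

/-- Twice the centroid of an antitone density is at most the length of its interval. -/
lemma centroid_le {g : ℝ → ℝ} {e : ℝ} (he : 0 < e) (hg : AntitoneOn g (Icc 0 e)) :
    2 * (∫ x in (0:ℝ)..e, x * g x) ≤ e * ∫ x in (0:ℝ)..e, g x := by
  have hg' : AntitoneOn g (uIcc 0 e) := by rwa [uIcc_of_le he.le]
  have hi : IntervalIntegrable g volume 0 e := hg'.intervalIntegrable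
  have hxi : IntervalIntegrable (fun x => x * g x) volume 0 e :=
    hi.continuousOn_mul continuousOn_id
  have hci : IntervalIntegrable (fun x => g (e / 2) * (2 * x - e)) volume 0 e :=
    (by fun_prop : Continuous fun x : ℝ => g (e / 2) * (2 * x - e)).intervalIntegrable _ _
  have h1 : ∫ x in (0:ℝ)..e, (2 * (x * g x) - e * g x) ≤
      ∫ x in (0:ℝ)..e, g (e / 2) * (2 * x - e) := by
    refine intervalIntegral.integral_mono_on he.le ((hxi.const_mul 2).sub (hi.const_mul e)) hci
      fun x hx => ?_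
    have hm : e / 2 ∈ Icc 0 e := ⟨by linarith, by linarith⟩
    rcases le_total x (e / 2) with h | h
    · nlinarith [mul_nonneg (sub_nonneg.2 (hg hx hm h)) (show (0:ℝ) ≤ e - 2 * x by linarith)]
    · nlinarith [mul_nonneg (sub_nonneg.2 (hg hm hx h)) (show (0:ℝ) ≤ 2 * x - e by linarith)]
  have hci0 : ∫ x in (0:ℝ)..e, g (e / 2) * (2 * x - e) = 0 := by
    rw [intervalIntegral.integral_const_mul, intervalIntegral.integral_sub
      (Continuous.intervalIntegrable (by fun_prop) _ _) intervalIntegrable_const,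
      intervalIntegral.integral_const_mul, integral_id, intervalIntegral.integral_const, smul_eq_mul]
    ring
  rw [intervalIntegral.integral_sub (hxi.const_mul 2) (hi.const_mul e),
    intervalIntegral.integral_const_mul, intervalIntegral.integral_const_mul, hci0] at h1
  linarith

/-- The density-weighted mean of a concave decreasing density is at most its plain mean up to
twice its centroid. -/
lemma average_le {g : ℝ → ℝ} {e c : ℝ} (hg : AntitoneOn g (Icc 0 e))
    (hgc : ConcaveOn ℝ (Icc 0 e) g) (hnn : ∀ x ∈ Icc 0 e, 0 ≤ g x) (hc0 : 0 < c)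
    (hce : 2 * c ≤ e) (hc : ∫ x in (0:ℝ)..e, x * g x = c * ∫ x in (0:ℝ)..e, g x) :
    2 * c * (∫ x in (0:ℝ)..e, g x ^ 2) ≤
      (∫ x in (0:ℝ)..e, g x) * ∫ x in (0:ℝ)..(2 * c), g x := by
  have he : 0 ≤ e := le_trans (by linarith) hce
  have hm2 : 2 * c ∈ Icc 0 e := ⟨by linarith, hce⟩
  have hg' : AntitoneOn g (uIcc 0 e) := by rwa [uIcc_of_le he]
  have hi : IntervalIntegrable g volume 0 e := hg'.intervalIntegrable
  have hsq : IntervalIntegrable (fun x => g x ^ 2) volume 0 e := by
    refine AntitoneOn.intervalIntegrable ?_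
    rw [uIcc_of_le he]
    exact fun x hx y hy hxy => pow_le_pow_left₀ (hnn y hy) (hg hx hy hxy) 2
  have hu1 : uIcc (0:ℝ) (2 * c) ⊆ uIcc 0 e := by
    rw [uIcc_of_le he, uIcc_of_le hm2.1]
    exact Icc_subset_Icc le_rfl hce
  have hu2 : uIcc (2 * c) e ⊆ uIcc 0 e := by
    rw [uIcc_of_le he, uIcc_of_le hce]
    exact Icc_subset_Icc hm2.1 le_rfl
  set I := ∫ x in (0:ℝ)..(2 * c), g x with hI
  set σ := (I / (2 * c) - g (2 * c)) / c with hσ
  set ψ : ℝ → ℝ := fun x => g (2 * c) + σ * (2 * c - x) with hψ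
  have hψc : Continuous ψ := by fun_prop
  set d : ℝ → ℝ := fun x => g x - ψ x with hd
  have hdi : IntervalIntegrable d volume 0 e := hi.sub (hψc.intervalIntegrable _ _)
  have hd2 : d (2 * c) = 0 := by simp [hd, hψ]
  have hdint : ∫ x in (0:ℝ)..(2 * c), d x = 0 := by
    rw [hd, intervalIntegral.integral_sub (hi.mono_set hu1) (hψc.intervalIntegrable _ _), hψ,
      intervalIntegral.integral_add intervalIntegrable_const
        (Continuous.intervalIntegrable (by fun_prop) _ _),
      intervalIntegral.integral_const_mul, intervalIntegral.integral_sub intervalIntegrable_const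
        (continuous_id'.intervalIntegrable _ _),
      intervalIntegral.integral_const, intervalIntegral.integral_const, integral_id,
      smul_eq_mul, smul_eq_mul, ← hI, hσ]
    field_simp
    ring
  have hdc : ConcaveOn ℝ (Icc 0 e) d := by
    refine ⟨convex_Icc _ _, fun x hx y hy p q hp hq hpq => ?_⟩
    have hcc := hgc.2 hx hy hp hq hpq
    simp only [smul_eq_mul] at hcc ⊢
    have hlin : p * ψ x + q * ψ y = ψ (p * x + q * y) := by
      simp only [hψ]
      linear_combination (g (2 * c) + σ * (2 * c)) * hpq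
    simp only [hd]
    nlinarith [hcc, hlin]
  -- beyond twice the centroid the difference is nonpositive
  have htail : ∀ x ∈ Icc (2 * c) e, d x ≤ 0 := by
    intro x hx
    by_contra hpos
    rw [not_le] at hpos
    have hx2 : 2 * c < x := lt_of_le_of_ne hx.1 fun h => by
      rw [← h, hd2] at hpos; exact lt_irrefl _ hpos
    have hb : ∀ y ∈ Icc 0 (2 * c), (x - 2 * c) * d y ≤ (y - 2 * c) * d x := by
      intro y hy
      have hxy : 0 < x - y := by linarith [hy.2]
      have h3 := hdc.2 (show y ∈ Icc 0 e from ⟨hy.1, hy.2.trans hce⟩)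
        (show x ∈ Icc 0 e from ⟨by linarith, hx.2⟩)
        (show 0 ≤ (x - 2 * c) / (x - y) from div_nonneg (by linarith) hxy.le)
        (show 0 ≤ (2 * c - y) / (x - y) from div_nonneg (by linarith [hy.2]) hxy.le)
        (by field_simp; ring)
      simp only [smul_eq_mul] at h3
      rw [show (x - 2 * c) / (x - y) * y + (2 * c - y) / (x - y) * x = 2 * c by
        field_simp; ring, hd2, div_mul_eq_mul_div, div_mul_eq_mul_div, ← add_div,
        div_le_iff₀ hxy, zero_mul] at h3
      linarith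
    have h4 : ∫ y in (0:ℝ)..(2 * c), (x - 2 * c) * d y ≤
        ∫ y in (0:ℝ)..(2 * c), (y - 2 * c) * d x :=
      intervalIntegral.integral_mono_on hm2.1 ((hdi.mono_set hu1).const_mul _)
        (Continuous.intervalIntegrable (by fun_prop) _ _) hb
    rw [intervalIntegral.integral_const_mul, hdint, mul_zero, intervalIntegral.integral_mul_const,
      intervalIntegral.integral_sub (continuous_id'.intervalIntegrable _ _) intervalIntegrable_const,
      integral_id, intervalIntegral.integral_const, smul_eq_mul] at h4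
    nlinarith [mul_pos (mul_pos hc0 hc0) hpos]
  -- the sign change
  set S : Set ℝ := {x | x ∈ Icc 0 (2 * c) ∧ 0 ≤ d x} with hS
  have hne : S.Nonempty := ⟨2 * c, ⟨hm2.1, le_rfl⟩, hd2.ge⟩
  have hbl : BddBelow S := ⟨0, fun x hx => hx.1.1⟩
  set x0 := sInf S with hx0
  have hx00 : 0 ≤ x0 := le_csInf hne fun x hx => hx.1.1
  have hx02 : x0 ≤ 2 * c := csInf_le hbl ⟨⟨hm2.1, le_rfl⟩, hd2.ge⟩
  have hx0m : x0 ∈ Icc 0 e := ⟨hx00, hx02.trans hce⟩
  have hsign : ∀ x ∈ Icc 0 (2 * c), g x * d x ≤ g x0 * d x := by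
    intro x hx
    have hxm : x ∈ Icc 0 e := ⟨hx.1, hx.2.trans hce⟩
    rcases lt_trichotomy x x0 with h | h | h
    · have : d x < 0 := not_le.1 fun h' => absurd (csInf_le hbl ⟨hx, h'⟩) (not_le.2 h)
      exact mul_le_mul_of_nonpos_right (hg hxm hx0m h.le) this.le
    · rw [h]
    · refine mul_le_mul_of_nonneg_right (hg hx0m hxm h.le) ?_
      obtain ⟨y, hy, hyx⟩ := exists_lt_of_csInf_lt hne h
      have h3 := hdc.ge_on_segment (show y ∈ Icc 0 e from ⟨hy.1.1, hy.1.2.trans hce⟩) hm2
        (show x ∈ segment ℝ y (2 * c) by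
          rw [segment_eq_Icc hy.1.2]; exact ⟨hyx.le, hx.2⟩)
      exact le_trans (le_min hy.2 hd2.ge) h3
  have hgd : IntervalIntegrable (fun x => g x * d x) volume 0 e := by
    refine (hsq.sub (hi.continuousOn_mul hψc.continuousOn)).congr fun x _ => ?_
    simp only [hd]; ring
  have h5 : ∫ x in (0:ℝ)..(2 * c), g x * d x ≤ 0 := by
    calc ∫ x in (0:ℝ)..(2 * c), g x * d x ≤ ∫ x in (0:ℝ)..(2 * c), g x0 * d x :=
          intervalIntegral.integral_mono_on hm2.1 (hgd.mono_set hu1)
            ((hdi.mono_set hu1).const_mul _) hsign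
      _ = 0 := by rw [intervalIntegral.integral_const_mul, hdint, mul_zero]
  have h6 : ∫ x in (2 * c)..e, g x * d x ≤ 0 := by
    calc ∫ x in (2 * c)..e, g x * d x ≤ ∫ _x in (2 * c)..e, (0:ℝ) :=
          intervalIntegral.integral_mono_on hce (hgd.mono_set hu2) intervalIntegrable_const
            fun x hx => mul_nonpos_of_nonneg_of_nonpos
              (hnn x ⟨hm2.1.trans hx.1, hx.2⟩) (htail x hx)
      _ = 0 := by simp
  have h7 : ∫ x in (0:ℝ)..e, g x * d x ≤ 0 := by
    rw [← intervalIntegral.integral_add_adjacent_intervals (hgd.mono_set hu1) (hgd.mono_set hu2)]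
    linarith
  have hxi : IntervalIntegrable (fun x => x * g x) volume 0 e := hi.continuousOn_mul continuousOn_id
  have h8 : ∀ x, g x * d x = g x ^ 2 - ((g (2 * c) + σ * (2 * c)) * g x - σ * (x * g x)) :=
    fun x => by simp only [hd, hψ]; ring
  simp only [h8] at h7
  rw [intervalIntegral.integral_sub hsq ((hi.const_mul _).sub (hxi.const_mul _)),
    intervalIntegral.integral_sub (hi.const_mul _) (hxi.const_mul _),
    intervalIntegral.integral_const_mul, intervalIntegral.integral_const_mul, hc] at h7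
  have hkey : 2 * c * (g (2 * c) + σ * c) = I := by rw [hσ]; field_simp; ring
  rw [← hkey]
  nlinarith [mul_le_mul_of_nonneg_left h7 hm2.1]

/-- Integrals over subintervals as integrals over the unit interval. -/
lemma integral_scale (f : ℝ → ℝ) (c d : ℝ) :
    c * (∫ x in (0:ℝ)..1, f (d + c * x)) = ∫ x in d..(d + c), f x := by
  have := intervalIntegral.smul_integral_comp_add_mul (f := f) (a := (0:ℝ)) (b := 1) c d
  simpa using this

lemma integrable_scale {f : ℝ → ℝ} {e c d : ℝ} (hf : AntitoneOn f (Icc 0 e)) (hc : 0 ≤ c)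
    (hd : 0 ≤ d) (hde : d + c ≤ e) :
    IntervalIntegrable (fun x => f (d + c * x)) volume 0 1 := by
  refine AntitoneOn.intervalIntegrable ?_
  rw [uIcc_of_le zero_le_one]
  intro x hx y hy hxy
  refine hf ⟨?_, ?_⟩ ⟨?_, ?_⟩ (by nlinarith) <;> nlinarith [hx.1, hx.2, hy.1, hy.2]

/-- Two parts of slices mixed into a part of the middle slice. -/
lemma mix_part (P : Profile) {s t θ e e' d d' w w' : ℝ} (hs : 0 ≤ s) (ht : 0 ≤ t) (h0 : 0 ≤ θ)
    (h1 : θ ≤ 1) (hd : 0 ≤ d) (hd' : 0 ≤ d') (hw : 0 ≤ w) (hw' : 0 ≤ w') (hde : d + w ≤ e)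
    (hde' : d' + w' ≤ e') (heD : ∀ x ∈ Icc 0 e, (s, x) ∈ P.D)
    (heD' : ∀ x ∈ Icc 0 e', (t, x) ∈ P.D) :
    (θ * w + (1 - θ) * w') * (θ * (∫ x in (0:ℝ)..1, P.G s (d + w * x)) +
        (1 - θ) * ∫ x in (0:ℝ)..1, P.G t (d' + w' * x)) ≤
      ∫ x in (θ * d + (1 - θ) * d')..(θ * d + (1 - θ) * d' + (θ * w + (1 - θ) * w')),
        P.G (θ * s + (1 - θ) * t) x := by
  have h1' : 0 ≤ 1 - θ := sub_nonneg.2 h1
  have hm0 : 0 ≤ θ * s + (1 - θ) * t := by positivity
  have hW : 0 ≤ θ * w + (1 - θ) * w' := by positivity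
  have hD : 0 ≤ θ * d + (1 - θ) * d' := by positivity
  have i1 := integrable_scale (f := P.G s) ((P.slice_anti hs).mono Icc_subset_Ici_self) hw hd hde
  have i2 := integrable_scale (f := P.G t) ((P.slice_anti ht).mono Icc_subset_Ici_self) hw' hd' hde'
  have i3 := integrable_scale (f := P.G (θ * s + (1 - θ) * t))
    ((P.slice_anti hm0).mono Icc_subset_Ici_self) hW hD le_rfl
  rw [← integral_scale]
  refine mul_le_mul_of_nonneg_left ?_ hW
  rw [← intervalIntegral.integral_const_mul, ← intervalIntegral.integral_const_mul,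
    ← intervalIntegral.integral_add (i1.const_mul θ) (i2.const_mul (1 - θ))]
  refine intervalIntegral.integral_mono_on zero_le_one
    ((i1.const_mul θ).add (i2.const_mul (1 - θ))) i3 fun x hx => ?_
  have hx1 : d + w * x ∈ Icc 0 e :=
    ⟨add_nonneg hd (mul_nonneg hw hx.1), le_trans (by nlinarith [hx.2]) hde⟩
  have hx2 : d' + w' * x ∈ Icc 0 e' :=
    ⟨add_nonneg hd' (mul_nonneg hw' hx.1), le_trans (by nlinarith [hx.2]) hde'⟩
  have := (P.height_mix (heD _ hx1) (heD' _ hx2) h0 h1).2
  rw [show θ * (d + w * x) + (1 - θ) * (d' + w' * x) =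
    θ * d + (1 - θ) * d' + (θ * w + (1 - θ) * w') * x by ring] at this
  exact this

/-- The algebra behind the two-slice inequality. -/
lemma pair_algebra {θ c c' α β J J' T T' A A' Φ Φ' X : ℝ} (h0 : 0 ≤ θ) (h1 : θ ≤ 1) (hc : 0 ≤ c)
    (hc' : 0 ≤ c') (hα : 0 ≤ α) (hβ : 0 ≤ β) (hT : 0 ≤ T) (hT' : 0 ≤ T') (hA0 : 0 ≤ A)
    (hA0' : 0 ≤ A') (hA : A = 2 * c * J + α * T) (hA' : A' = 2 * c' * J' + β * T')
    (hΦ : Φ ≤ A * J) (hΦ' : Φ' ≤ A' * J')
    (hX : 2 * (θ * c + (1 - θ) * c') * (θ * J + (1 - θ) * J') +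
      (θ * α + (1 - θ) * β) * (θ * T + (1 - θ) * T') ≤ X) :
    θ ^ 2 * A * (A * A') + (1 - θ) ^ 2 * A' * (A * A') +
      2 * θ * (1 - θ) * (c * A * Φ' + c' * A' * Φ) ≤ X * (A * A') := by
  have h1' : 0 ≤ 1 - θ := sub_nonneg.2 h1
  have hn : 0 ≤ θ * (1 - θ) * (α * T' + β * T) := by positivity
  have hlow : θ ^ 2 * A + (1 - θ) ^ 2 * A' + 2 * θ * (1 - θ) * (c * J' + c' * J) ≤ X := by
    rw [hA, hA']
    linarith
  have hcross : c * A * Φ' + c' * A' * Φ ≤ A * A' * (c * J' + c' * J) := by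
    have e1 := mul_le_mul_of_nonneg_left hΦ' (mul_nonneg hc hA0)
    have e2 := mul_le_mul_of_nonneg_left hΦ (mul_nonneg hc' hA0')
    linarith
  have hθθ : 0 ≤ 2 * θ * (1 - θ) := by positivity
  calc _ ≤ (θ ^ 2 * A + (1 - θ) ^ 2 * A' + 2 * θ * (1 - θ) * (c * J' + c' * J)) * (A * A') := by
        linarith [mul_le_mul_of_nonneg_left hcross hθθ]
    _ ≤ _ := mul_le_mul_of_nonneg_right hlow (mul_nonneg hA0 hA0')

/-- The two-slice inequality. -/
theorem pairBound : PairBound := by
  intro P s t θ hs hst hta hθ0 hθ1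
  have ht : 0 ≤ t := hs.trans hst.le
  rcases (P.A_nonneg s).eq_or_lt with hAs | hAs
  · simp [← hAs, P.M_eq_zero hs hAs.symm, P.Φ_eq_zero hs hAs.symm]
  rcases (P.A_nonneg t).eq_or_lt with hAt | hAt
  · simp [← hAt, P.M_eq_zero ht hAt.symm, P.Φ_eq_zero ht hAt.symm]
  obtain ⟨e, he, heD, heo⟩ := P.exists_extent hAs
  obtain ⟨e', he', heD', heo'⟩ := P.exists_extent hAt
  set g := P.G s with hgdef
  set g' := P.G t with hg'def
  have eA : P.A s = ∫ x in (0:ℝ)..e, g x :=
    P.integral_extent he.le (φ := fun _ y => y) (fun _ => rfl) heo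
  have eA' : P.A t = ∫ x in (0:ℝ)..e', g' x :=
    P.integral_extent he'.le (φ := fun _ y => y) (fun _ => rfl) heo'
  have eM : P.M s = ∫ x in (0:ℝ)..e, x * g x :=
    P.integral_extent he.le (φ := fun x y => x * y) (fun x => mul_zero x) heo
  have eM' : P.M t = ∫ x in (0:ℝ)..e', x * g' x :=
    P.integral_extent he'.le (φ := fun x y => x * y) (fun x => mul_zero x) heo'
  have eΦ : P.Φ s = ∫ x in (0:ℝ)..e, g x ^ 2 :=
    P.integral_extent he.le (φ := fun _ y => y ^ 2) (fun _ => zero_pow two_ne_zero) heo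
  have eΦ' : P.Φ t = ∫ x in (0:ℝ)..e', g' x ^ 2 :=
    P.integral_extent he'.le (φ := fun _ y => y ^ 2) (fun _ => zero_pow two_ne_zero) heo'
  have hg : AntitoneOn g (Icc 0 e) := (P.slice_anti hs).mono Icc_subset_Ici_self
  have hg' : AntitoneOn g' (Icc 0 e') := (P.slice_anti ht).mono Icc_subset_Ici_self
  have hgc : ∀ {r b : ℝ}, (∀ x ∈ Icc 0 b, (r, x) ∈ P.D) → ConcaveOn ℝ (Icc 0 b) (P.G r) := by
    intro r b hb
    refine ⟨convex_Icc _ _, fun x hx y hy p q hp hq hpq => ?_⟩
    obtain rfl : q = 1 - p := by linarith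
    have := (P.height_mix (hb x hx) (hb y hy) hp (by linarith)).2
    rw [show p * r + (1 - p) * r = r by ring] at this
    simpa using this
  have hMpos : ∀ {r b : ℝ}, 0 < b → (P.A r = ∫ x in (0:ℝ)..b, P.G r x) →
      (P.M r = ∫ x in (0:ℝ)..b, x * P.G r x) → 0 < P.A r → 0 ≤ r → 0 < P.M r := by
    intro r b _ _ _ hA hr
    refine lt_of_le_of_ne (P.M_nonneg r) fun h => hA.ne' ?_
    have hz := (setIntegral_eq_zero_iff_of_nonneg_ae ((ae_restrict_iff' measurableSet_Ioi).2
      (Filter.Eventually.of_forall fun x hx => mul_nonneg (le_of_lt hx) (P.nonneg r x)))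
      (P.integrable_xG hr)).1 h.symm
    refine integral_eq_zero_of_ae ?_
    filter_upwards [hz, ae_restrict_mem measurableSet_Ioi] with x hx hxm
    simp only [Pi.zero_apply, mul_eq_zero] at hx ⊢
    exact hx.resolve_left (ne_of_gt hxm)
  set c := P.M s / P.A s with hcdef
  set c' := P.M t / P.A t with hc'def
  have hc : 0 < c := div_pos (hMpos he eA eM hAs hs) hAs
  have hc' : 0 < c' := div_pos (hMpos he' eA' eM' hAt ht) hAt
  have hMc : P.M s = c * P.A s := (div_mul_cancel₀ _ hAs.ne').symm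
  have hMc' : P.M t = c' * P.A t := (div_mul_cancel₀ _ hAt.ne').symm
  have hce : 2 * c ≤ e := by
    have := centroid_le he hg
    rw [← eM, ← eA, hMc] at this
    nlinarith
  have hce' : 2 * c' ≤ e' := by
    have := centroid_le he' hg'
    rw [← eM', ← eA', hMc'] at this
    nlinarith
  set I := ∫ x in (0:ℝ)..(2 * c), g x with hI
  set I' := ∫ x in (0:ℝ)..(2 * c'), g' x with hI'
  have hav : 2 * c * P.Φ s ≤ P.A s * I := by
    rw [eΦ, eA]
    exact average_le hg (hgc heD) (fun x _ => P.nonneg _ _) hc hce (by rw [← eM, ← eA, hMc])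
  have hav' : 2 * c' * P.Φ t ≤ P.A t * I' := by
    rw [eΦ', eA']
    exact average_le hg' (hgc heD') (fun x _ => P.nonneg _ _) hc' hce' (by rw [← eM', ← eA', hMc'])
  -- the mixed slice
  set m := θ * s + (1 - θ) * t with hm
  have hθ' : 0 ≤ 1 - θ := by linarith
  have hm0 : 0 ≤ m := by rw [hm]; positivity
  set C := θ * c + (1 - θ) * c' with hC
  set L := θ * (e - 2 * c) + (1 - θ) * (e' - 2 * c') with hL
  have hC0 : 0 ≤ C := by rw [hC]; positivity
  have hα : 0 ≤ e - 2 * c := by linarith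
  have hβ : 0 ≤ e' - 2 * c' := by linarith
  have hL0 : 0 ≤ L := by rw [hL]; positivity
  have hF : AntitoneOn (P.G m) (Icc 0 (2 * C + L)) := (P.slice_anti hm0).mono Icc_subset_Ici_self
  have hW1 : θ * (2 * c) + (1 - θ) * (2 * c') = 2 * C := by rw [hC]; ring
  have hmain : 2 * C * (θ * (∫ x in (0:ℝ)..1, g (0 + 2 * c * x)) +
      (1 - θ) * ∫ x in (0:ℝ)..1, g' (0 + 2 * c' * x)) ≤ ∫ x in (0:ℝ)..(2 * C), P.G m x := by
    have := mix_part P hs ht hθ0.le hθ1.le (d := 0) (d' := 0) (w := 2 * c) (w' := 2 * c') le_rfl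
      le_rfl (by linarith) (by linarith) (by linarith) (by linarith) heD heD'
    simpa only [mul_zero, add_zero, zero_add, hW1] using this
  have htail : L * (θ * (∫ x in (0:ℝ)..1, g (2 * c + (e - 2 * c) * x)) +
      (1 - θ) * ∫ x in (0:ℝ)..1, g' (2 * c' + (e' - 2 * c') * x)) ≤
        ∫ x in (2 * C)..(2 * C + L), P.G m x := by
    have := mix_part P hs ht hθ0.le hθ1.le (d := 2 * c) (d' := 2 * c') (w := e - 2 * c)
      (w' := e' - 2 * c') (by linarith) (by linarith) hα hβ (by linarith) (by linarith) heD heD'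
    rw [hW1, ← hL] at this
    exact this
  have hAm : (∫ x in (0:ℝ)..(2 * C), P.G m x) + (∫ x in (2 * C)..(2 * C + L), P.G m x) ≤
      P.A m := by
    have h1 : IntervalIntegrable (P.G m) volume 0 (2 * C + L) := by
      refine AntitoneOn.intervalIntegrable ?_
      rwa [uIcc_of_le (by linarith)]
    rw [intervalIntegral.integral_add_adjacent_intervals
      (h1.mono_set (by
        rw [uIcc_of_le (by linarith : (0:ℝ) ≤ 2 * C + L), uIcc_of_le (by linarith : (0:ℝ) ≤ 2 * C)]
        exact Icc_subset_Icc le_rfl (by linarith)))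
      (h1.mono_set (by
        rw [uIcc_of_le (by linarith : (0:ℝ) ≤ 2 * C + L),
          uIcc_of_le (by linarith : 2 * C ≤ 2 * C + L)]
        exact Icc_subset_Icc (by linarith) le_rfl)),
      intervalIntegral.integral_of_le (by linarith)]
    exact setIntegral_mono_set (P.integrable_G hm0)
      (Filter.Eventually.of_forall fun x => P.nonneg m x)
      (Filter.Eventually.of_forall fun x hx => hx.1)
  -- names for the normalised integrals
  set J := ∫ x in (0:ℝ)..1, g (0 + 2 * c * x) with hJ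
  set J' := ∫ x in (0:ℝ)..1, g' (0 + 2 * c' * x) with hJ'
  set T := ∫ x in (0:ℝ)..1, g (2 * c + (e - 2 * c) * x) with hT
  set T' := ∫ x in (0:ℝ)..1, g' (2 * c' + (e' - 2 * c') * x) with hT'
  have eI : I = 2 * c * J := by rw [hI, hJ, integral_scale g (2 * c) 0, zero_add]
  have eI' : I' = 2 * c' * J' := by rw [hI', hJ', integral_scale g' (2 * c') 0, zero_add]
  have eAs : P.A s = 2 * c * J + (e - 2 * c) * T := by
    rw [hJ, hT, integral_scale g (2 * c) 0, integral_scale g (e - 2 * c) (2 * c), zero_add,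
      add_sub_cancel, eA, intervalIntegral.integral_add_adjacent_intervals]
    · exact (AntitoneOn.intervalIntegrable (by
        rw [uIcc_of_le (by linarith : (0:ℝ) ≤ 2 * c)]
        exact hg.mono (Icc_subset_Icc le_rfl hce)))
    · exact (AntitoneOn.intervalIntegrable (by
        rw [uIcc_of_le hce]
        exact hg.mono (Icc_subset_Icc (by linarith) le_rfl)))
  have eAt : P.A t = 2 * c' * J' + (e' - 2 * c') * T' := by
    rw [hJ', hT', integral_scale g' (2 * c') 0, integral_scale g' (e' - 2 * c') (2 * c'), zero_add,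
      add_sub_cancel, eA', intervalIntegral.integral_add_adjacent_intervals]
    · exact (AntitoneOn.intervalIntegrable (by
        rw [uIcc_of_le (by linarith : (0:ℝ) ≤ 2 * c')]
        exact hg'.mono (Icc_subset_Icc le_rfl hce')))
    · exact (AntitoneOn.intervalIntegrable (by
        rw [uIcc_of_le hce']
        exact hg'.mono (Icc_subset_Icc (by linarith) le_rfl)))
  have hT0 : 0 ≤ T := intervalIntegral.integral_nonneg zero_le_one fun x _ => P.nonneg _ _
  have hT0' : 0 ≤ T' := intervalIntegral.integral_nonneg zero_le_one fun x _ => P.nonneg _ _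
  have hJs : P.Φ s ≤ P.A s * J := by
    rw [eI] at hav
    exact le_of_mul_le_mul_left (by linarith) (show 0 < 2 * c by linarith)
  have hJt : P.Φ t ≤ P.A t * J' := by
    rw [eI'] at hav'
    exact le_of_mul_le_mul_left (by linarith) (show 0 < 2 * c' by linarith)
  have hbnd := (add_le_add hmain htail).trans hAm
  rw [hMc, hMc']
  exact pair_algebra hθ0.le hθ1.le hc.le hc'.le hα hβ hT0 hT0' hAs.le hAt.le eAs eAt hJs hJt hbnd

end Vale.Agent.P254.Three
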