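import Vale.Agent.P254.Three.Pair

/-!
The square root of the slice area of a profile is concave.
-/

open MeasureTheory Set

namespace Vale.Agent.P254.Three

namespace Profile

variable (P : Profile)

/-- The superlevel set of the height over a slice. -/
def level (r y : ℝ) : Set ℝ := {x | 0 ≤ x ∧ (r, x) ∈ P.D ∧ y ≤ P.G r x}

/-- The width of a superlevel set. -/
noncomputable def width (r y : ℝ) : ℝ := sSup (P.level r y)

lemma level_bdd (r y : ℝ) : BddAbove (P.level r y) := by
  obtain ⟨R, -, hR⟩ := P.exists_width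
  exact ⟨R, fun x hx => hR _ hx.2.1⟩

lemma width_nonneg (r y : ℝ) : 0 ≤ P.width r y := Real.sSup_nonneg fun _ hx => hx.1

lemma width_anti (r : ℝ) : Antitone (P.width r) := fun y y' hy => by
  rcases (P.level r y').eq_empty_or_nonempty with he | hne
  · simp only [width, he, Real.sSup_empty]
    exact P.width_nonneg r y
  · exact csSup_le_csSup (P.level_bdd r y) hne fun x hx => ⟨hx.1, hx.2.1, hy.trans hx.2.2⟩

/-- The slice area as an integral of widths. -/
lemma area_eq {r : ℝ} (hr : 0 ≤ r) (hra : r ≤ P.a) :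
    P.A r = ∫ y in (0:ℝ)..P.G r 0, P.width r y := by
  have hlc := (P.integrable_G hr).integral_eq_integral_Ioc_meas_le
    (μ := volume.restrict (Ioi 0)) (Filter.Eventually.of_forall (P.nonneg r)) (M := P.G r 0)
    ((ae_restrict_iff' measurableSet_Ioi).2 (Filter.Eventually.of_forall fun x hx =>
      P.slice_anti hr (mem_Ici.2 le_rfl) (mem_Ici.2 (le_of_lt hx)) (le_of_lt hx)))
  rw [intervalIntegral.integral_of_le (P.nonneg r 0)]
  refine hlc.trans (setIntegral_congr_fun measurableSet_Ioc fun y hy => ?_)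
  simp only [Measure.real, Measure.restrict_apply' measurableSet_Ioi]
  set w := P.width r y with hw
  have hne : (P.level r y).Nonempty := ⟨0, le_rfl, P.axis_mem hr hra, hy.2⟩
  have h1 : Ioo 0 w ⊆ {x | y ≤ P.G r x} ∩ Ioi 0 := fun x hx => by
    obtain ⟨z, hz, hxz⟩ := exists_lt_of_lt_csSup hne hx.2
    exact ⟨hz.2.2.trans (P.slice_anti hr (mem_Ici.2 hx.1.le) (mem_Ici.2 hz.1) hxz.le), hx.1⟩
  have h2 : {x | y ≤ P.G r x} ∩ Ioi 0 ⊆ Ioc 0 w := fun x hx => by
    refine ⟨hx.2, le_csSup (P.level_bdd r y) ⟨le_of_lt hx.2, ?_, hx.1⟩⟩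
    by_contra hc
    have := hx.1
    rw [mem_ofPred_eq, P.zero_out r x hc] at this
    exact absurd this (not_le.2 hy.1)
  have e1 : volume ({x | y ≤ P.G r x} ∩ Ioi 0) = ENNReal.ofReal w := le_antisymm
    ((measure_mono h2).trans (by simp)) (le_trans (by simp) (measure_mono h1))
  rw [e1, ENNReal.toReal_ofReal (P.width_nonneg r y)]

/-- Widths of two slices mix into the width of the middle slice. -/
lemma width_mix {s t θ y y' : ℝ} (hs : 0 ≤ s) (hsa : s ≤ P.a) (ht : 0 ≤ t) (hta : t ≤ P.a)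
    (h0 : 0 < θ) (h1 : θ < 1) (hy : y ≤ P.G s 0) (hy' : y' ≤ P.G t 0) :
    θ * P.width s y + (1 - θ) * P.width t y' ≤
      P.width (θ * s + (1 - θ) * t) (θ * y + (1 - θ) * y') := by
  have h1' : 0 < 1 - θ := sub_pos.2 h1
  have hne : (P.level s y).Nonempty := ⟨0, le_rfl, P.axis_mem hs hsa, hy⟩
  have hne' : (P.level t y').Nonempty := ⟨0, le_rfl, P.axis_mem ht hta, hy'⟩
  set W := P.width (θ * s + (1 - θ) * t) (θ * y + (1 - θ) * y') with hW
  have key : ∀ x ∈ P.level s y, ∀ x' ∈ P.level t y', θ * x + (1 - θ) * x' ≤ W := by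
    intro x hx x' hx'
    obtain ⟨hd, hg⟩ := P.height_mix hx.2.1 hx'.2.1 h0.le h1.le
    refine le_csSup (P.level_bdd _ _) ⟨?_, hd, le_trans ?_ hg⟩
    · have := hx.1
      have := hx'.1
      positivity
    · exact add_le_add (mul_le_mul_of_nonneg_left hx.2.2 h0.le)
        (mul_le_mul_of_nonneg_left hx'.2.2 h1'.le)
  have k1 : ∀ x ∈ P.level s y, θ * x + (1 - θ) * P.width t y' ≤ W := by
    intro x hx
    have h3 : P.width t y' ≤ (W - θ * x) / (1 - θ) := csSup_le hne' fun x' hx' => by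
      rw [le_div_iff₀ h1']
      linarith [key x hx x' hx']
    rw [le_div_iff₀ h1'] at h3
    linarith
  have h4 : P.width s y ≤ (W - (1 - θ) * P.width t y') / θ := csSup_le hne fun x hx => by
    rw [le_div_iff₀ h0]
    linarith [k1 x hx]
  rw [le_div_iff₀ h0] at h4
  linarith

/-- Mixing two slices of positive height. -/
lemma area_mix {s t θ : ℝ} (hs : 0 ≤ s) (hsa : s ≤ P.a) (ht : 0 ≤ t) (hta : t ≤ P.a)
    (h0 : 0 < θ) (h1 : θ < 1) :
    (θ * P.G s 0 + (1 - θ) * P.G t 0) *
        (θ * (∫ u in (0:ℝ)..1, P.width s (P.G s 0 * u)) +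
          (1 - θ) * ∫ u in (0:ℝ)..1, P.width t (P.G t 0 * u)) ≤
      P.A (θ * s + (1 - θ) * t) := by
  have h1' : 0 ≤ 1 - θ := by linarith
  have hm : 0 ≤ θ * s + (1 - θ) * t := by positivity
  have hma : θ * s + (1 - θ) * t ≤ P.a := by nlinarith
  set m := θ * s + (1 - θ) * t with hmdef
  set Hb := θ * P.G s 0 + (1 - θ) * P.G t 0 with hHb
  have hHb0 : 0 ≤ Hb := add_nonneg (mul_nonneg h0.le (P.nonneg _ _)) (mul_nonneg h1' (P.nonneg _ _))
  have hHbm : Hb ≤ P.G m 0 := by
    have := (P.height_mix (P.axis_mem hs hsa) (P.axis_mem ht hta) h0.le h1.le).2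
    rwa [show θ * (0:ℝ) + (1 - θ) * 0 = 0 by ring] at this
  have hi : ∀ r {b c : ℝ}, 0 ≤ c → IntervalIntegrable (fun u => P.width r (c * u)) volume 0 b := by
    intro r b c hc
    exact ((P.width_anti r).comp_monotone fun _ _ h => mul_le_mul_of_nonneg_left h hc).intervalIntegrable
  calc _ ≤ Hb * ∫ u in (0:ℝ)..1, P.width m (Hb * u) := by
        refine mul_le_mul_of_nonneg_left ?_ hHb0
        rw [← intervalIntegral.integral_const_mul, ← intervalIntegral.integral_const_mul,
          ← intervalIntegral.integral_add ((hi s (P.nonneg _ _)).const_mul θ)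
            ((hi t (P.nonneg _ _)).const_mul (1 - θ))]
        refine intervalIntegral.integral_mono_on zero_le_one
          (((hi s (P.nonneg _ _)).const_mul θ).add ((hi t (P.nonneg _ _)).const_mul (1 - θ)))
          (hi m hHb0) fun u hu => ?_
        have := P.width_mix hs hsa ht hta h0 h1 (mul_le_of_le_one_right (P.nonneg s 0) hu.2)
          (mul_le_of_le_one_right (P.nonneg t 0) hu.2)
        rwa [show θ * (P.G s 0 * u) + (1 - θ) * (P.G t 0 * u) = Hb * u by rw [hHb]; ring] at this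
    _ = ∫ y in (0:ℝ)..Hb, P.width m y := by
        have := intervalIntegral.smul_integral_comp_mul_left (f := P.width m) (a := (0:ℝ)) (b := 1) Hb
        simpa using this
    _ ≤ ∫ y in (0:ℝ)..P.G m 0, P.width m y :=
        intervalIntegral.integral_mono_interval le_rfl hHb0 hHbm
          (Filter.Eventually.of_forall fun y => P.width_nonneg m y)
          (P.width_anti m).intervalIntegrable
    _ = P.A m := (P.area_eq hm hma).symm

/-- The slice area in normalised widths. -/
lemma area_scaled {r : ℝ} (hr : 0 ≤ r) (hra : r ≤ P.a) :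
    P.A r = P.G r 0 * ∫ u in (0:ℝ)..1, P.width r (P.G r 0 * u) := by
  rw [P.area_eq hr hra]
  have := intervalIntegral.smul_integral_comp_mul_left (f := P.width r) (a := (0:ℝ)) (b := 1)
    (P.G r 0)
  simpa using this.symm

/-- The root inequality at an interior point. -/
lemma root_mix {s t θ : ℝ} (hs : 0 ≤ s) (hsa : s ≤ P.a) (ht : 0 ≤ t) (hta : t ≤ P.a)
    (h0 : 0 < θ) (h1 : θ < 1) :
    θ * P.h s + (1 - θ) * P.h t ≤ P.h (θ * s + (1 - θ) * t) := by
  have h1' : 0 < 1 - θ := sub_pos.2 h1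
  refine Real.le_sqrt_of_sq_le ?_
  refine le_trans ?_ (P.area_mix hs hsa ht hta h0 h1)
  set J := ∫ u in (0:ℝ)..1, P.width s (P.G s 0 * u) with hJ
  set J' := ∫ u in (0:ℝ)..1, P.width t (P.G t 0 * u) with hJ'
  have hJ0 : 0 ≤ J := intervalIntegral.integral_nonneg zero_le_one fun _ _ => P.width_nonneg _ _
  have hJ0' : 0 ≤ J' := intervalIntegral.integral_nonneg zero_le_one fun _ _ => P.width_nonneg _ _
  have es : P.h s ^ 2 = P.G s 0 * J := by rw [P.h_sq, hJ, P.area_scaled hs hsa]
  have et : P.h t ^ 2 = P.G t 0 * J' := by rw [P.h_sq, hJ', P.area_scaled ht hta]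
  have hG := P.nonneg s 0
  have hG' := P.nonneg t 0
  -- the inequality of means for the cross term
  have hcross : 2 * (P.h s * P.h t) ≤ P.G s 0 * J' + P.G t 0 * J := by
    refine (pow_le_pow_iff_left₀ (by have := P.h_nonneg s; have := P.h_nonneg t; positivity)
      (by positivity) two_ne_zero).1 ?_
    have e : (2 * (P.h s * P.h t)) ^ 2 = 4 * (P.G s 0 * J) * (P.G t 0 * J') := by
      rw [← es, ← et]; ring
    rw [e]
    linarith [sq_nonneg (P.G s 0 * J' - P.G t 0 * J)]
  linear_combination θ ^ 2 * es + (1 - θ) ^ 2 * et + θ * (1 - θ) * hcross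

end Profile

/-- The root of the slice area is concave and decreasing. -/
theorem rootConcave : RootConcave := by
  intro P
  refine ⟨⟨convex_Icc _ _, fun s hs t ht θ θ' hθ hθ' hsum => ?_⟩, fun s hs t _ hst =>
    Real.sqrt_le_sqrt (P.A_anti hs.1 hst)⟩
  obtain rfl : θ' = 1 - θ := by linarith
  simp only [smul_eq_mul]
  rcases hθ.eq_or_lt with h | h
  · simp [← h]
  rcases hθ'.eq_or_lt with h' | h'
  · obtain rfl : θ = 1 := by linarith
    simp
  exact P.root_mix hs.1 hs.2 ht.1 ht.2 h (by linarith)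

end Vale.Agent.P254.Three
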