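import Vale.Agent.P254.Orlicz.OneDim
import Vale.Agent.P254.Three.Defs

/-!
Slices of a profile.
-/

open MeasureTheory Set

namespace Vale.Agent.P254.Three

namespace Profile

variable (P : Profile)

lemma exists_width : ∃ R : ℝ, 0 < R ∧ ∀ p ∈ P.D, p.2 ≤ R := by
  obtain ⟨R, hR⟩ := (P.compact.image continuous_snd).bddAbove
  exact ⟨max R 1, by positivity, fun p hp => (hR (mem_image_of_mem _ hp)).trans (le_max_left _ _)⟩

lemma zero_mem : ((0, 0) : ℝ × ℝ) ∈ P.D :=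
  P.down _ P.mem_a (0, 0) le_rfl le_rfl P.a_pos.le le_rfl

lemma axis_mem {t : ℝ} (ht : 0 ≤ t) (hta : t ≤ P.a) : (t, (0:ℝ)) ∈ P.D :=
  P.down _ P.mem_a (t, 0) ht le_rfl hta le_rfl

lemma measurable_slice (t : ℝ) : Measurable (P.G t) :=
  P.meas.comp (measurable_const.prodMk measurable_id)

lemma slice_anti {t : ℝ} (ht : 0 ≤ t) : AntitoneOn (P.G t) (Ici 0) :=
  fun _ hx _ _ hxy => P.anti _ _ _ _ ht hx le_rfl hxy

/-- Powers of the height are integrable over slices, with a polynomial weight. -/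
lemma integrable_weight {t : ℝ} (ht : 0 ≤ t) (j : ℕ) {k : ℕ} (hk : k ≠ 0) :
    IntegrableOn (fun x => x ^ j * P.G t x ^ k) (Ioi 0) := by
  obtain ⟨R, hR, hR'⟩ := P.exists_width
  refine Orlicz.integrable_of_bound (a := R) (C := R ^ j * P.G t 0 ^ k)
    ((measurable_id.pow_const j).mul ((P.measurable_slice t).pow_const k)) (fun x hx => ?_)
    fun x hx => ?_
  · rw [P.zero_out t x fun h => absurd (hR' _ h) (not_le.2 hx), zero_pow hk, mul_zero]
  · rw [abs_of_nonneg (mul_nonneg (pow_nonneg hx.1.le _) (pow_nonneg (P.nonneg _ _) _))]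
    exact mul_le_mul (pow_le_pow_left₀ hx.1.le hx.2 _)
      (pow_le_pow_left₀ (P.nonneg _ _) (P.slice_anti ht (mem_Ici.2 le_rfl) hx.1.le hx.1.le) _)
      (pow_nonneg (P.nonneg _ _) _) (pow_nonneg hR.le _)

lemma integrable_G {t : ℝ} (ht : 0 ≤ t) : IntegrableOn (P.G t) (Ioi 0) := by
  simpa using P.integrable_weight ht 0 one_ne_zero

lemma integrable_xG {t : ℝ} (ht : 0 ≤ t) : IntegrableOn (fun x => x * P.G t x) (Ioi 0) := by
  simpa using P.integrable_weight ht 1 one_ne_zero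

lemma integrable_G2 {t : ℝ} (ht : 0 ≤ t) : IntegrableOn (fun x => P.G t x ^ 2) (Ioi 0) := by
  simpa using P.integrable_weight ht 0 two_ne_zero

lemma A_nonneg (t : ℝ) : 0 ≤ P.A t := setIntegral_nonneg measurableSet_Ioi fun x _ => P.nonneg t x

lemma M_nonneg (t : ℝ) : 0 ≤ P.M t :=
  setIntegral_nonneg measurableSet_Ioi fun x hx => mul_nonneg (le_of_lt hx) (P.nonneg t x)

lemma Φ_nonneg (t : ℝ) : 0 ≤ P.Φ t := setIntegral_nonneg measurableSet_Ioi fun _ _ => sq_nonneg _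

lemma h_nonneg (t : ℝ) : 0 ≤ P.h t := Real.sqrt_nonneg _

lemma h_sq (t : ℝ) : P.h t ^ 2 = P.A t := Real.sq_sqrt (P.A_nonneg t)

lemma A_anti {s t : ℝ} (hs : 0 ≤ s) (hst : s ≤ t) : P.A t ≤ P.A s :=
  setIntegral_mono_on (P.integrable_G (hs.trans hst)) (P.integrable_G hs) measurableSet_Ioi
    fun _ hx => P.anti _ _ _ _ hs (le_of_lt hx) hst le_rfl

lemma ae_zero_of_A {t : ℝ} (ht : 0 ≤ t) (h : P.A t = 0) :
    P.G t =ᵐ[volume.restrict (Ioi 0)] 0 :=
  (setIntegral_eq_zero_iff_of_nonneg_ae (Filter.Eventually.of_forall fun x => P.nonneg t x)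
    (P.integrable_G ht)).1 h

lemma M_eq_zero {t : ℝ} (ht : 0 ≤ t) (h : P.A t = 0) : P.M t = 0 :=
  integral_eq_zero_of_ae ((P.ae_zero_of_A ht h).mono fun x hx => by simp [hx])

lemma Φ_eq_zero {t : ℝ} (ht : 0 ≤ t) (h : P.A t = 0) : P.Φ t = 0 :=
  integral_eq_zero_of_ae ((P.ae_zero_of_A ht h).mono fun x hx => by simp [hx])

lemma integral_extent {t e : ℝ} (he : 0 ≤ e) {φ : ℝ → ℝ → ℝ} (hφ : ∀ x, φ x 0 = 0)
    (hout : ∀ x, e < x → (t, x) ∉ P.D) :
    ∫ x in Ioi (0:ℝ), φ x (P.G t x) = ∫ x in (0:ℝ)..e, φ x (P.G t x) := by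
  rw [intervalIntegral.integral_of_le he,
    setIntegral_eq_of_subset_of_forall_sdiff_eq_zero measurableSet_Ioi (s := Ioc 0 e)
      Ioc_subset_Ioi_self]
  intro x hx
  rw [P.zero_out t x (hout x (not_le.1 fun h => hx.2 ⟨hx.1, h⟩)), hφ]

/-- A slice of positive area is an interval of positive length. -/
lemma exists_extent {t : ℝ} (hA : 0 < P.A t) :
    ∃ e, 0 < e ∧ (∀ x ∈ Icc 0 e, (t, x) ∈ P.D) ∧ ∀ x, e < x → (t, x) ∉ P.D := by
  set S : Set ℝ := {x | 0 ≤ x ∧ (t, x) ∈ P.D} with hS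
  have hex : ∃ x : ℝ, 0 < x ∧ (t, x) ∈ P.D := by
    by_contra hc
    push Not at hc
    refine hA.ne' (setIntegral_eq_zero_of_forall_eq_zero fun x hx => P.zero_out t x (hc x hx))
  obtain ⟨x0, hx0, hx0'⟩ := hex
  obtain ⟨R, -, hR⟩ := P.exists_width
  have hcl : IsClosed S :=
    (isClosed_le continuous_const continuous_id).inter
      (P.compact.isClosed.preimage (continuous_const.prodMk continuous_id))
  have hbd : BddAbove S := ⟨R, fun x hx => hR _ hx.2⟩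
  have hne : S.Nonempty := ⟨x0, hx0.le, hx0'⟩
  have hmem := hcl.csSup_mem hne hbd
  have hpos : 0 < sSup S := hx0.trans_le (le_csSup hbd ⟨hx0.le, hx0'⟩)
  exact ⟨sSup S, hpos, fun x hx => P.down _ hmem.2 (t, x) (P.quad _ hx0').1 hx.1 le_rfl hx.2,
    fun x hx h => absurd (le_csSup hbd ⟨hpos.le.trans hx.le, h⟩) (not_le.2 hx)⟩

/-- Concavity of the height along a segment between two slices. -/
lemma height_mix {s t x y θ : ℝ} (hx : (s, x) ∈ P.D) (hy : (t, y) ∈ P.D) (h0 : 0 ≤ θ)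
    (h1 : θ ≤ 1) :
    (θ * s + (1 - θ) * t, θ * x + (1 - θ) * y) ∈ P.D ∧
      θ * P.G s x + (1 - θ) * P.G t y ≤
        P.G (θ * s + (1 - θ) * t) (θ * x + (1 - θ) * y) := by
  have hd := P.convex hx hy h0 (sub_nonneg.2 h1) (by ring)
  have hc := P.concave.2 hx hy h0 (sub_nonneg.2 h1) (by ring)
  simp only [smul_eq_mul, Prod.smul_mk, Prod.mk_add_mk] at hd hc
  exact ⟨hd, hc⟩

end Profile

end Vale.Agent.P254.Three
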